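import Vale.Agent.P297.H54.T8Tri
import Vale.Agent.P297.H860.TEnd

/-!
The lines through the nodes: from the relation between a line through a node and the four lines
through another node in the same plane to the vanishing of the cycles (abstract form).
-/

set_option linter.unusedSectionVars false
set_option linter.unusedVariables false
set_option linter.style.haveILetI false

open IntermediateField Polynomial WeierstrassCurve WeierstrassCurve.Affine

namespace Vale.Agent.P297.H212.Z2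

open Vale.Agent.P297 Vale.Agent.P297.Gen Vale.Agent.P297.H839 Vale.Agent.P297.H600
open Vale.Agent.P297.H729 Vale.Agent.P297.Z3 Vale.Agent.P297.G4 Vale.Agent.P297.H54
open Vale.Agent.P297.H860

section

variable {A N : Type} [AddCommGroup A] [Field N] [Algebra ℂ N] [IsAlgClosed N]

/-- an element killed by all the derivations over a closed subfield belongs to it -/
theorem mem_of_der {M : IntermediateField ℂ N} (hM : Closed M) {x : N}
    (hx : ∀ D : Derivation ℤ N N, (∀ u ∈ M, D u = 0) → D x = 0) : x ∈ M := by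
  by_contra hxM
  obtain ⟨D, hD, hDx⟩ := Gen.exists_derivation M (w := x) (fun h => hxM (hM x h))
  have := hx D hD
  rw [hDx] at this
  exact one_ne_zero this

theorem inF_of_all [CharZero N] {a b : N} {M : IntermediateField ℂ N} (hM : Closed M)
    (ha : a ∈ M) (hb : b ∈ M) {R : (wc a b).toAffine.Point}
    (h : ∀ D : Derivation ℤ N N, (∀ u ∈ M, D u = 0) → theta D R = 0) : InF M R := by
  rcases R with (_ | ⟨x, y, hxy⟩)
  · exact inF_zero M
  · rw [inF_iff hM ha hb]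
    exact mem_of_der hM fun D hD => (theta_eq_zero (hD a ha) (hD b hb) hxy (h D hD)).1

/-- A line through the node `i`, given by a point of the curve `w ^ 2 = q₂ X`, `v ^ 2 = q₄ X`,
generic over `ℂ(l)`. -/
structure Gn (q2 : Fin 3 → N → N) (c : Fin 3 → Fin 5 → N) (l : N) (i : Fin 3) (X w v : N) :
    Prop where
  gen : X ∉ cl0 ({l} : Set N)
  hw : w ^ 2 = q2 i X
  hv : v ^ 2 = qv (c i) X

/-- The facts about the lines through the three nodes. -/
structure Side (kap : Fin 3 → N) (c : Fin 3 → Fin 5 → N) (l : N) (q2 : Fin 3 → N → N)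
    (B : N → N → N → A) (Bc : Fin 3 → N → N → N → A)
    (R4 : Fin 3 → Fin 3 → (Fin 5 → N × N × N) → Prop) (𝓡 : AddSubgroup A) : Prop where
  hB : ∀ i X w v, Gn q2 c l i X w v → B (kap i) X v = Bc i X w v + Bc i X (-w) v
  T1 : ∀ i X w v, Gn q2 c l i X w v → Bc i X w v + Bc i X (-w) (-v) ∈ 𝓡
  T2 : ∀ i X w v, Gn q2 c l i X w v → Bc i X w v + Bc i X w (-v) ∈ 𝓡
  ex : ∀ i j, i ≠ j → ∃ d, R4 i j d
  fst : ∀ i j d, R4 i j d → Gn q2 c l i (d 0).1 (d 0).2.1 (d 0).2.2
  on : ∀ i j d, R4 i j d → ∀ k : Fin 4, Gn q2 c l j (d k.succ).1 (d k.succ).2.1 (d k.succ).2.2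
  inv : ∀ i j d, R4 i j d → ∀ g : N ≃ₐ[ℂ] N, (∀ z ∈ cl0 ({l} : Set N), g z = z) →
    R4 i j (fun k => (g (d k).1, g (d k).2.1, g (d k).2.2))
  L4 : ∀ i j d, R4 i j d → (2 : ℤ) • Bc i (d 0).1 (d 0).2.1 (d 0).2.2 +
    ∑ k : Fin 4, Bc j (d k.succ).1 (d k.succ).2.1 (d k.succ).2.2 ∈ 𝓡
  F4 : ∀ i j d, R4 i j d → ∀ D : Derivation ℤ N N, (∀ z ∈ cl0 ({l} : Set N), D z = 0) →
    2 * (D (d 0).1 / (d 0).2.2) + ∑ k : Fin 4, D (d k.succ).1 / (d k.succ).2.2 = 0

variable {kap : Fin 3 → N} {c : Fin 3 → Fin 5 → N} {l : N} {q2 : Fin 3 → N → N}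
  {B : N → N → N → A} {Bc : Fin 3 → N → N → N → A}
  {R4 : Fin 3 → Fin 3 → (Fin 5 → N × N × N) → Prop} {𝓡 : AddSubgroup A}

theorem Side.two (S : Side kap c l q2 B Bc R4 𝓡) {i : Fin 3} {X w v : N}
    (h : Gn q2 c l i X w v) : B (kap i) X v - (2 : ℤ) • Bc i X w v ∈ 𝓡 := by
  have h1 := S.T1 i X (-w) v ⟨h.gen, by rw [neg_sq]; exact h.hw, h.hv⟩
  have h2 := S.T2 i X w v h
  rw [neg_neg] at h1
  have h3 := sub_mem h1 h2
  rw [S.hB i X w v h]
  have h4 : Bc i X w v + Bc i X (-w) v - (2 : ℤ) • Bc i X w v =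
      Bc i X (-w) v + Bc i X w (-v) - (Bc i X w v + Bc i X w (-v)) := by
    rw [two_zsmul]
    abel
  rw [h4]
  exact h3

variable [CharZero N] [DecidableEq N] {a b : N}

/-- the point of the jacobian -/
theorem exists_point (T : TriD kap c l a b) {ε : Fin 3 → N} (hε : ∀ i, qv (c i) (ε i) = 0)
    {i : Fin 3} {X v : N} (hX : X ∉ cl0 ({l} : Set N)) (hv : v ^ 2 = qv (c i) X) :
    ∃ P : (wc a b).toAffine.Point, ¬ InF (cl0 {l}) P ∧
      aX (c i) (ε i) (pc (T.ha i) (T.hb i) P) = X ∧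
      aY (c i) (ε i) (pc (T.ha i) (T.hb i) P) = v := by
  have hκ := closed_cl0 ({l} : Set N)
  have hεm : ε i ∈ cl0 {l} := G4.root_mem hκ (T.memc i) (coeff_ne (T.disc i)) (hε i)
  have hne : X ≠ ε i := fun h => hX (by rw [h]; exact hεm)
  obtain ⟨Q, hfin, hQX, hQY⟩ := exists_fin (T.disc i) (hε i) hv hne
  obtain ⟨P, rfl⟩ := (pc_bij (T.ha i) (T.hb i)).2 Q
  refine ⟨P, ?_, hQX, hQY⟩
  intro h
  rw [← pc_inF (T.ha i) (T.hb i)] at h
  rw [← aX_mem_iff (T.disc i) (T.memc i) hκ hεm (hε i) hfin, hQX] at h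
  exact hX h

theorem theta_pc {a' b' : N} (ha : a' = a) (hb : b' = b) (D : Derivation ℤ N N)
    (P : (wc a b).toAffine.Point) : theta D (pc ha hb P) = theta D P := by
  subst ha hb
  rfl

/-- the logarithmic derivative of the point of the jacobian -/
theorem theta_point (T : TriD kap c l a b) {ε : Fin 3 → N} (hε : ∀ i, qv (c i) (ε i) = 0)
    {i : Fin 3} {X v : N} {P : (wc a b).toAffine.Point} (hP : ¬ InF (cl0 {l}) P)
    (hX : aX (c i) (ε i) (pc (T.ha i) (T.hb i) P) = X)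
    (hv : aY (c i) (ε i) (pc (T.ha i) (T.hb i) P) = v) (hXg : X ∉ cl0 ({l} : Set N))
    {D : Derivation ℤ N N} (hD : ∀ z ∈ cl0 ({l} : Set N), D z = 0) :
    theta D P = -(D X / v) := by
  have hκ := closed_cl0 ({l} : Set N)
  have hεm : ε i ∈ cl0 {l} := G4.root_mem hκ (T.memc i) (coeff_ne (T.disc i)) (hε i)
  have hfin : Fin' (c i) (ε i) (pc (T.ha i) (T.hb i) P) :=
    gen_fin (T.memc i) hκ hεm (by rwa [pc_inF])
  have hv0 : v ≠ 0 := by
    rintro rfl
    have h1 := Fin'.eqn (hε i) hfin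
    rw [hv, hX] at h1
    apply hXg
    exact G4.root_mem hκ (T.memc i) (coeff_ne (T.disc i)) (by rw [← h1]; ring)
  rw [← theta_pc (T.ha i) (T.hb i), ← hX, ← hv]
  exact theta_aX (fun j => hD _ (T.memc i j)) (hD _ hεm) hfin (by rw [hv]; exact hv0)

/-- the conjugates of the point of the jacobian -/
theorem act_point (T : TriD kap c l a b) {ε : Fin 3 → N} (hε : ∀ i, qv (c i) (ε i) = 0)
    (i : Fin 3) (P : (wc a b).toAffine.Point) (g : N ≃ₐ[ℂ] N)
    (hg : ∀ z ∈ cl0 ({l} : Set N), g z = z) (hgab : (g : N →+* N) a = a ∧ (g : N →+* N) b = b) :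
    aX (c i) (ε i) (pc (T.ha i) (T.hb i) (gfun (g : N →+* N) hgab P)) =
        g (aX (c i) (ε i) (pc (T.ha i) (T.hb i) P)) ∧
      aY (c i) (ε i) (pc (T.ha i) (T.hb i) (gfun (g : N →+* N) hgab P)) =
        g (aY (c i) (ε i) (pc (T.ha i) (T.hb i) P)) := by
  have hκ := closed_cl0 ({l} : Set N)
  have hεm : ε i ∈ cl0 {l} := G4.root_mem hκ (T.memc i) (coeff_ne (T.disc i)) (hε i)
  obtain ⟨h1, h2⟩ := map_aXc g (c := c i) (c' := c i) (fun j => hg _ (T.memc i j)) (T.ha i)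
    (T.hb i) (T.ha i) (T.hb i) hgab (ε i) P
  rw [hg _ hεm] at h1 h2
  exact ⟨h1.symm, h2.symm⟩

/-- **The lines through the nodes.** -/
theorem Side.glue (S : Side kap c l q2 B Bc R4 𝓡) (T : TriD kap c l a b) {ε : Fin 3 → N}
    (hε : ∀ i, qv (c i) (ε i) = 0) (Φ : Fin 3 → (wc a b).toAffine.Point →+ A ⧸ 𝓡)
    (hΦ : ∀ i P, ¬ InF (cl0 {l}) P → (2 : ℕ) • (QuotientAddGroup.mk (bt T B ε i P) : A ⧸ 𝓡) =
      (2 : ℕ) • Φ i P)
    {n : ℕ} (hn : ∀ P, ¬ InF (cl0 {l}) P → n • ∑ i, Φ i P = 0) {i : Fin 3} {X w v : N}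
    (h : Gn q2 c l i X w v) : (24 * n : ℤ) • Bc i X w v ∈ 𝓡 := by
  have hκ := closed_cl0 ({l} : Set N)
  have ham := T.amem i
  have hbm := T.bmem i
  -- transcendence degree
  have hbig : ∃ x x' : N, x ∉ cl0 ({l} : Set N) ∧ x' ∉ clo (cl0 {l}) {x} := by
    obtain ⟨x', hx'⟩ := exists_notMem1 T.deg l X
    exact ⟨X, x', h.gen, hx'⟩
  -- the cycle of a line in terms of the homomorphisms
  have key : ∀ (i : Fin 3) (X w v : N) (P : (wc a b).toAffine.Point), Gn q2 c l i X w v →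
      ¬ InF (cl0 {l}) P → aX (c i) (ε i) (pc (T.ha i) (T.hb i) P) = X →
      aY (c i) (ε i) (pc (T.ha i) (T.hb i) P) = v →
      (4 : ℤ) • (QuotientAddGroup.mk (Bc i X w v) : A ⧸ 𝓡) = (2 : ℕ) • Φ i P := by
    intro i X w v P hG hP hX hv
    rw [← hΦ i P hP]
    have h1 := S.two hG
    have h2 : bt T B ε i P = B (kap i) X v := by
      unfold bt
      rw [hX, hv]
    have h3 : (QuotientAddGroup.mk (B (kap i) X v) : A ⧸ 𝓡) =
        (2 : ℤ) • QuotientAddGroup.mk (Bc i X w v) := by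
      rw [← QuotientAddGroup.mk_zsmul, ← sub_eq_zero, ← QuotientAddGroup.mk_sub]
      exact (QuotientAddGroup.eq_zero_iff _).2 h1
    rw [h2, h3, ← natCast_zsmul, smul_smul]
    norm_num
  -- the homomorphisms vanish
  have hzero := hom_three hκ ham hbm T.hd hbig (fun j => (2 : ℕ) • Φ j) (n := n) (by
      intro P hP
      have h1 : ∑ j, ((2 : ℕ) • Φ j) P = (2 : ℕ) • ∑ j, Φ j P := by
        rw [Finset.smul_sum]
        rfl
      rw [h1, smul_comm, hn P hP, smul_zero]) (by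
    intro i j hij
    obtain ⟨d, hd⟩ := S.ex i j hij
    have g0 := S.fst i j d hd
    have gk := S.on i j d hd
    obtain ⟨P₀, hP₀, hX₀, hv₀⟩ := exists_point T hε g0.gen g0.hv
    choose Q hQ hXQ hvQ using fun k => exists_point T hε (gk k).gen (gk k).hv
    -- the constant point
    have hR : InF (cl0 {l}) (∑ k, Q k + (2 : ℕ) • P₀) := by
      refine inF_of_all hκ ham hbm fun D hD => ?_
      have hDa := hD a ham
      have hDb := hD b hbm
      rw [theta_add hDa hDb, theta_nsmul hDa hDb, theta_sum hDa hDb,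
        theta_point T hε hP₀ hX₀ hv₀ g0.gen hD]
      rw [Finset.sum_congr rfl fun k _ =>
        theta_point T hε (hQ k) (hXQ k) (hvQ k) (gk k).gen hD]
      have h4 := S.F4 i j d hd D hD
      rw [Finset.sum_neg_distrib]
      push_cast
      linear_combination -h4
    refine ⟨P₀, ∑ k, Q k + (2 : ℕ) • P₀, hP₀, fun g hg => ?_⟩
    have hgab := fixAB hg ham hbm
    have h5 := gfun_fix hg ham hbm hR
    have h6 : -((2 : ℕ) • gfun (g : N →+* N) (fixAB hg ham hbm) P₀) +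
        (∑ k, Q k + (2 : ℕ) • P₀) = ∑ k, gfun (g : N →+* N) (fixAB hg ham hbm) (Q k) := by
      rw [gfun_add, gfun_nsmul, Fin.sum_univ_four, gfun_add, gfun_add, gfun_add] at h5
      rw [Fin.sum_univ_four, Fin.sum_univ_four, ← h5]
      abel
    rw [h6]
    -- the relation for the conjugate
    have hd' := S.inv i j d hd g hg
    have g0' := S.fst i j _ hd'
    have gk' := S.on i j _ hd'
    have hL := S.L4 i j _ hd'
    have hgen : ∀ P : (wc a b).toAffine.Point, ¬ InF (cl0 {l}) P →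
        ¬ InF (cl0 {l}) (gfun (g : N →+* N) (fixAB hg ham hbm) P) := by
      intro P hP h7
      apply hP
      rcases P with (_ | ⟨x, y, hxy⟩)
      · exact inF_zero _
      · obtain ⟨h8, h9⟩ := h7 (g x) (g y) (gfun_aux (g : N →+* N) (fixAB hg ham hbm) hxy) rfl
        have h10 : g x = x := by
          have := hg _ h8
          exact g.injective this
        have h11 : g y = y := by
          have := hg _ h9
          exact g.injective this
        rw [h10] at h8
        rw [h11] at h9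
        exact inF_some _ h8 h9
    obtain ⟨e1, e2⟩ := act_point T hε i P₀ g hg (fixAB hg ham hbm)
    have k0 := key i _ _ _ _ g0' (hgen P₀ hP₀) (e1.trans (congrArg g hX₀))
      (e2.trans (congrArg g hv₀))
    have kk : ∀ k, _ := fun k =>
      key j _ _ _ _ (gk' k) (hgen (Q k) (hQ k))
        ((act_point T hε j (Q k) g hg (fixAB hg ham hbm)).1.trans (congrArg g (hXQ k)))
        ((act_point T hε j (Q k) g hg (fixAB hg ham hbm)).2.trans (congrArg g (hvQ k)))
    have h12 : (4 : ℤ) • (QuotientAddGroup.mk ((2 : ℤ) • Bc i (g (d 0).1) (g (d 0).2.1)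
        (g (d 0).2.2) + ∑ k : Fin 4, Bc j (g (d k.succ).1) (g (d k.succ).2.1)
        (g (d k.succ).2.2)) : A ⧸ 𝓡) = 0 := by
      rw [(QuotientAddGroup.eq_zero_iff _).2 hL, smul_zero]
    rw [Fin.sum_univ_four] at h12 ⊢
    rw [QuotientAddGroup.mk_add, QuotientAddGroup.mk_zsmul, QuotientAddGroup.mk_add,
      QuotientAddGroup.mk_add, QuotientAddGroup.mk_add, smul_add, smul_add, smul_add, smul_add,
      smul_comm (4 : ℤ) (2 : ℤ), k0, kk 0, kk 1, kk 2, kk 3] at h12
    rw [map_add, map_add, map_add]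
    rw [← h12, ← natCast_zsmul]
    rfl)
  obtain ⟨P, hP, hX, hv⟩ := exists_point T hε h.gen h.hv
  have h1 := key i X w v P h hP hX hv
  have h2 := hzero i P
  have h3 : ((6 * n : ℕ) : ℤ) • ((4 : ℤ) • (QuotientAddGroup.mk (Bc i X w v) : A ⧸ 𝓡)) = 0 := by
    rw [h1, natCast_zsmul]
    exact h2
  rw [smul_smul, ← QuotientAddGroup.mk_zsmul] at h3
  have h4 := (QuotientAddGroup.eq_zero_iff _).1 h3
  have h5 : ((6 * n : ℕ) : ℤ) * 4 = 24 * n := by
    push_cast
    ring
  rwa [h5] at h4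

end

end Vale.Agent.P297.H212.Z2
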