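import Vale.Agent.P297.H212.Z2.Quart2
import Vale.Agent.P297.H10.Z2.TriInst
import Vale.Agent.P297.H940.Z2.T2
import Vale.Agent.P297.H65.Z2.PlaneMap

/-!
The four tangent lines through a node in a general plane are distinct.
-/

set_option linter.unusedSectionVars false
set_option linter.unusedVariables false

open IntermediateField Polynomial

namespace Vale.Agent.P297.Z2

open Vale.Agent.P297 Vale.Agent.P297.Gen Vale.Agent.P297.H839 Vale.Agent.P297.H600
open Vale.Agent.P297.H729 Vale.Agent.P297.Z3 Vale.Agent.P297.G4 Vale.Agent.P297.H160.Z2Irr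

theorem parity_sq {A B : ℂ[X]} {c : ℂ} (hc : c ≠ 0) (hB : B ≠ 0) (h : A ^ 2 = C c * X * B ^ 2) :
    False := by
  have hr : C c * X * B ^ 2 ≠ 0 := mul_ne_zero (mul_ne_zero (C_ne_zero.2 hc) X_ne_zero)
    (pow_ne_zero 2 hB)
  have hA : A ≠ 0 := by
    rintro rfl
    apply hr
    rw [← h]
    ring
  have h1 := congrArg natDegree h
  rw [natDegree_pow, natDegree_mul (mul_ne_zero (C_ne_zero.2 hc) X_ne_zero) (pow_ne_zero 2 hB),
    natDegree_C_mul hc, natDegree_X, natDegree_pow] at h1
  omega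

section

variable {N : Type} [Field N] [Algebra ℂ N] [IsAlgClosed N] [CharZero N] {P : Par}
  {l al be : N}

theorem node_l0 (hl : Transcendental ℂ l) : l ≠ 0 := by
  rintro rfl
  exact hl isAlgebraic_zero

theorem node_e0 (hl : Transcendental ℂ l) (hn : IsNode P l al be) : be - al ≠ 0 := by
  rw [hn.sub]
  intro h
  apply hl
  have : l = algebraMap ℂ N 1 := by rw [map_one]; linear_combination -h
  rw [this]
  exact isAlgebraic_algebraMap 1

theorem node_M1 (hc : NC P) (hl : Transcendental ℂ l) (hn : IsNode P l al be) {X : N}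
    (hX : (ntd P l al be).q2 X = 0) : (ntd P l al be).M1 X ≠ 0 := by
  intro hM
  have htr := idx_tr hc hl hn
  have ha := hn.al0
  have hb := hn.be0
  have hR := hn.rl
  have hAC := hR.hAC
  have hA := hR.hA
  have hC := hR.hC
  rw [TD.M1_eq] at hM
  rw [TD.q2_eq] at hX
  have e1 : (ntd P l al be).mu0 = l * (al * algebraMap ℂ N P.P0 + be * algebraMap ℂ N P.P2) -
      al * be * (algebraMap ℂ N P.Q0 - algebraMap ℂ N P.Q1) := by
    unfold TD.mu0 TD.h0
    rw [hR.kr, hR.kp, hR.e]
    change al * (ntd P l al be).A = be * algebraMap ℂ N P.P2 at hA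
    change be * (ntd P l al be).C = al * algebraMap ℂ N P.P0 at hC
    change l * (be * (ntd P l al be).A + al * (ntd P l al be).C) +
      (al * be * (algebraMap ℂ N P.Q1 - l * (algebraMap ℂ N P.u + algebraMap ℂ N P.v)) +
        l * (be - al) * (ntd P l al be).C) -
      (al * be * (algebraMap ℂ N P.Q0 - l * (algebraMap ℂ N P.u + algebraMap ℂ N P.v)) +
        l * (be - al) * (ntd P l al be).A) = _
    linear_combination l * hA + l * hC
  rw [e1] at hM
  change l * X + _ = 0 at hM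
  have e2 : (ntd P l al be).Q20 = -(4 * al * be * (algebraMap ℂ N P.P0 * algebraMap ℂ N P.P2)) := by
    unfold TD.Q20
    rw [← hAC]
    change -(4 * al * be * _ * _) = _
    ring
  rw [e2] at hX
  -- the equation between the letters
  have e3 : (l * (al * algebraMap ℂ N P.P0 + be * algebraMap ℂ N P.P2) -
      al * be * (algebraMap ℂ N P.Q0 - algebraMap ℂ N P.Q1)) ^ 2 =
      4 * l ^ 2 * al * be * (algebraMap ℂ N P.P0 * algebraMap ℂ N P.P2) := by
    linear_combination ((l * (al * algebraMap ℂ N P.P0 + be * algebraMap ℂ N P.P2) -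
      al * be * (algebraMap ℂ N P.Q0 - algebraMap ℂ N P.Q1)) - l * X) * hM + l ^ 2 * hX
  have e4 := hn.cub
  obtain ⟨t, ht⟩ : ∃ t, t = al / be := ⟨_, rfl⟩
  have hal : al = t * be := by rw [ht]; field_simp
  rw [← ht] at htr
  rw [hal] at e3 e4
  have e5 : l * tq P t = t * be * (algebraMap ℂ N P.Q0 * t - algebraMap ℂ N P.Q1) := by
    apply mul_left_cancel₀ (pow_ne_zero 2 hb)
    unfold tq
    linear_combination -e4
  have ht0 : t ≠ 0 := by
    rintro rfl
    exact htr isAlgebraic_zero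
  have e6 : ((algebraMap ℂ N P.Q0 * t - algebraMap ℂ N P.Q1) *
      (t * algebraMap ℂ N P.P0 + algebraMap ℂ N P.P2) -
      (algebraMap ℂ N P.Q0 - algebraMap ℂ N P.Q1) * tq P t) ^ 2 =
      4 * (algebraMap ℂ N P.P0 * algebraMap ℂ N P.P2) * t *
        (algebraMap ℂ N P.Q0 * t - algebraMap ℂ N P.Q1) ^ 2 := by
    have e7 : t ^ 2 * be ^ 4 ≠ 0 := mul_ne_zero (pow_ne_zero 2 ht0) (pow_ne_zero 4 hb)
    apply mul_left_cancel₀ e7
    have e8 : (l * tq P t * (t * algebraMap ℂ N P.P0 + algebraMap ℂ N P.P2) * be -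
        t * be ^ 2 * (algebraMap ℂ N P.Q0 - algebraMap ℂ N P.Q1) * tq P t) ^ 2 =
        4 * (l * tq P t) ^ 2 * t * be ^ 2 * (algebraMap ℂ N P.P0 * algebraMap ℂ N P.P2) := by
      linear_combination tq P t ^ 2 * e3
    rw [e5] at e8
    linear_combination e8
  have e7 : aeval t ((((C P.Q0 * Polynomial.X - C P.Q1) * (Polynomial.X * C P.P0 + C P.P2) -
      (C P.Q0 - C P.Q1) * (C P.P0 * Polynomial.X ^ 2 - C P.P1 * Polynomial.X + C P.P2)) ^ 2 -
      C (4 * (P.P0 * P.P2)) * Polynomial.X * (C P.Q0 * Polynomial.X - C P.Q1) ^ 2 :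
        ℂ[X])) = 0 := by
    simp only [map_sub, map_mul, map_pow, map_add, aeval_C, aeval_X, map_ofNat]
    unfold tq at e6
    linear_combination e6
  have e8 := not_not.1 fun h => tr_aeval_ne htr h e7
  refine parity_sq (c := 4 * (P.P0 * P.P2)) ?_ ?_ (sub_eq_zero.1 e8)
  · exact mul_ne_zero (by norm_num) (mul_ne_zero hc.P0 hc.P2)
  · intro h0
    have h1 := congrArg (fun f => coeff f 0) h0
    have h2 := congrArg (fun f => coeff f 1) h0
    simp only [coeff_sub, coeff_C_mul, coeff_X_zero, mul_zero, coeff_C_zero, coeff_zero,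
      zero_sub, coeff_X_one, mul_one, coeff_C_succ, sub_zero] at h1 h2
    apply hc.Q
    rw [h2, neg_eq_zero.1 h1]

theorem node_nv (hc : NC P) (hl : Transcendental ℂ l) (hn : IsNode P l al be) {X : N}
    (hX : (ntd P l al be).q2 X = 0) (h2 : (ntd P l al be).T2 X = 0) : False := by
  have htr := idx_tr hc hl hn
  have hM := node_M1 hc hl hn hX
  have ha := hn.al0
  have hb := hn.be0
  have hR := hn.rl
  have hA : al * (ntd P l al be).A = be * algebraMap ℂ N P.P2 := hR.hA
  have hC : be * (ntd P l al be).C = al * algebraMap ℂ N P.P0 := hR.hC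
  unfold TD.T2 at h2
  rw [hX] at h2
  have h3 : l * ((ntd P l al be).M1 X * (al * be * (X + al * (ntd P l al be).A +
      be * (ntd P l al be).C))) = 0 := by
    unfold TD.d2 TD.t1 at h2
    change _ - l * _ * -(al * be * (X + al * (ntd P l al be).A + be * (ntd P l al be).C)) = 0 at h2
    linear_combination h2
  have h4 : X + al * (ntd P l al be).A + be * (ntd P l al be).C = 0 :=
    (mul_eq_zero.1 ((mul_eq_zero.1 ((mul_eq_zero.1 h3).resolve_left (node_l0 hl))).resolve_left
      hM)).resolve_left (mul_ne_zero ha hb)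
  have h5 : X ^ 2 - 4 * al * be * (ntd P l al be).A * (ntd P l al be).C = 0 := hX
  rw [show X = -(al * (ntd P l al be).A + be * (ntd P l al be).C) by linear_combination h4] at h5
  have h6 : (al * (ntd P l al be).A - be * (ntd P l al be).C) ^ 2 = 0 := by
    linear_combination h5
  have h7 := pow_eq_zero_iff (two_ne_zero) |>.1 h6
  rw [hA, hC] at h7
  have h8 : al / be * algebraMap ℂ N P.P0 = algebraMap ℂ N P.P2 := by
    field_simp
    linear_combination -h7
  have hP0 : (algebraMap ℂ N P.P0) ≠ 0 := (_root_.map_ne_zero _).2 hc.P0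
  have h9 : al / be = algebraMap ℂ N (P.P2 / P.P0) := by
    rw [map_div₀, ← h8]
    field_simp
  rw [h9] at htr
  exact htr (isAlgebraic_algebraMap _)

theorem node_mem (hc : NC P) (hl : Transcendental ℂ l) (hn : IsNode P l al be) :
    al ∈ cl0 ({l} : Set N) ∧ be ∈ cl0 ({l} : Set N) := by
  have hcm : ∀ z : ℂ, algebraMap ℂ N z ∈ cl0 ({l} : Set N) := fun z =>
    IntermediateField.algebraMap_mem _ _
  obtain ⟨hb, ha⟩ := be_of_isNode hc hl hn
  have ht := idx_mem hc hl hn
  have hbm : be ∈ cl0 ({l} : Set N) := by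
    rw [hb]
    unfold nbe tD tq tg
    refine div_mem ?_ ?_
    · exact add_mem (sub_mem (mul_mem (hcm _) (pow_mem ht 2)) (mul_mem (hcm _) ht)) (hcm _)
    · exact add_mem (mul_mem (sub_mem (one_mem _) ht)
        (add_mem (sub_mem (mul_mem (hcm _) (pow_mem ht 2)) (mul_mem (hcm _) ht)) (hcm _)))
        (mul_mem ht (sub_mem (mul_mem (hcm _) ht) (hcm _)))
  refine ⟨?_, hbm⟩
  have hb0 := hn.be0
  have h3 : al = al / be * be := by field_simp
  rw [h3]
  exact mul_mem ht hbm

/-- **The data of a node over the general `l` are regular.** -/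
theorem node_reg (hc : NC P) {p q : ℂ[X]} (I : InvPQ P p q) (hl : Transcendental ℂ l)
    (hn : IsNode P l al be) : Reg (cl0 ({l} : Set N)) (ntd P l al be) := by
  obtain ⟨ha, hb⟩ := node_mem hc hl hn
  have hlm : l ∈ cl0 ({l} : Set N) := subset_cl0 _ rfl
  have hcm : ∀ z : ℂ, algebraMap ℂ N z ∈ cl0 ({l} : Set N) := fun z =>
    IntermediateField.algebraMap_mem _ _
  have h2 : (2 : N) ∈ cl0 ({l} : Set N) := ofNat_mem _ 2
  have hA : be * algebraMap ℂ N P.P2 / al ∈ cl0 ({l} : Set N) := div_mem (mul_mem hb (hcm _)) ha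
  have hC : al * algebraMap ℂ N P.P0 / be ∈ cl0 ({l} : Set N) := div_mem (mul_mem ha (hcm _)) hb
  refine ⟨cl0_closed _, ha, hb, hlm, sub_mem hb ha, hA, hC, sub_mem (mul_mem ha (hcm _)) hC,
    sub_mem (neg_mem (mul_mem hb (hcm _))) hA, ?_, ?_, ?_, rfl, hn.rl.l, node_e0 hl hn,
    node_l0 hl, hn.al0, hn.be0, ?_, fun X hX h2 _ _ => node_nv hc hl hn hX h2⟩
  · exact add_mem (mul_mem (mul_mem ha hb) (sub_mem (hcm _) (mul_mem hlm (add_mem (hcm _) (hcm _)))))
      (mul_mem (mul_mem hlm (sub_mem hb ha)) hA)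
  · exact add_mem (mul_mem (mul_mem ha hb) (sub_mem (hcm _) (mul_mem hlm (add_mem (hcm _) (hcm _)))))
      (mul_mem (mul_mem hlm (sub_mem hb ha)) hC)
  · refine sub_mem (sub_mem (sub_mem (add_mem (neg_mem (mul_mem (mul_mem ha hb) (sub_mem (hcm _)
      (mul_mem hlm (hcm _))))) (mul_mem (mul_mem (mul_mem (mul_mem h2 hlm) (sub_mem hb ha)) hA) hC))
      ?_) ?_) ?_
    · exact mul_mem (mul_mem (mul_mem (mul_mem (mul_mem hlm (sub_mem hb ha)) ha) hb) (hcm _)) (hcm _)
    · exact mul_mem (mul_mem (mul_mem (mul_mem hlm ha) (sub_mem (mul_mem h2 hb) ha)) hA) (hcm _)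
    · exact mul_mem (mul_mem (mul_mem (mul_mem hlm hb) (sub_mem (mul_mem h2 ha) hb)) hC) (hcm _)
  · intro h0
    have hab := mul_ne_zero hn.al0 hn.be0
    have k1 := I.hI N l al be hn
    have k2 := I.hJ N l al be hn
    rw [k1, k2] at h0
    have h1 : aeval l (4 * p ^ 3 - q ^ 2) = 0 := by
      rw [map_sub, map_mul, map_pow, map_pow, map_ofNat]
      apply mul_left_cancel₀ (pow_ne_zero 12 hab)
      linear_combination h0
    exact tr_aeval_ne hl (sub_ne_zero.2 I.disc) h1

end

section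

variable {N : Type} [Field N] [Algebra ℂ N] {F : IntermediateField ℂ N} {d : TD N}

/-- the coordinate `p` of the line with the coordinates `(X, S)` -/
noncomputable def pS (d : TD N) (S X : N) : N :=
  d.pn + ((X - d.c) - d.al * S) / d.e -
    d.l * ((d.d2 X * S ^ 2 + d.d1 X * S + d.d0 X) / (d.e ^ 2 * d.q2 X))

noncomputable def rS (d : TD N) (S X : N) : N :=
  d.rn + (d.be * S - (X - d.c)) / d.e +
    d.l * ((d.d2 X * S ^ 2 + d.d1 X * S + d.d0 X) / (d.e ^ 2 * d.q2 X))

variable [IsAlgClosed N] [CharZero N]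

/-- the lines with the coordinates `(X, S)` -/
theorem Reg.line (h : Reg F d) {X S : N} (hS : S ∉ F) (hX : qv (d.ks S) X = 0) :
    X ∉ F ∧ pS d S X + rS d S X = S + d.pn + d.rn ∧
      d.b1 (pS d S X) (rS d S X) ^ 2 = 4 * d.B2 (pS d S X) (rS d S X) * d.b0 (pS d S X) (rS d S X) ∧
      (d.ka (pS d S X) (rS d S X) ≠ 0 → d.Xf (pS d S X) (rS d S X) = X) := by
  rw [← d.T_eq h.hl] at hX
  have hXF : X ∉ F := fun hm => hS (h.S_mem hX hm)
  have hpt := TD.Pt.of_XS (d := d) h.he h.e0 (h.q2_ne hXF) hX rfl rfl rfl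
  change d.Pt (pS d S X) (rS d S X) X S _ _ _ at hpt
  refine ⟨hXF, ?_, hpt.disc h.he, fun hk => ?_⟩
  · have := hpt.S_eq
    linear_combination this
  · have h1 := hpt.X_eq h.he
    have h2 := hpt.ka_mul h.he
    unfold TD.Xf TD.Gf
    rw [← h2]
    conv_rhs => rw [← h1]
    field_simp

end

section

variable {N : Type} [Field N] [Algebra ℂ N] [IsAlgClosed N] [CharZero N] {P : Par}
  {l al be W : N}

/-- **The four lines are distinct.** -/
theorem disc_nodup (hM : P.M1 = 0) (hc : NC P) {p q : ℂ[X]} (I : InvPQ P p q)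
    (hl : Transcendental ℂ l) (hn : IsNode P l al be)
    (hdeg : ((H65.planeCub P l W).disc al).natDegree = 4) (hW : W ∉ cl0 ({l} : Set N))
    (hka : ∀ p r : N, (ntd P l al be).b1 p r ^ 2 = 4 * (ntd P l al be).B2 p r *
      (ntd P l al be).b0 p r → (p ∉ cl0 ({l} : Set N) ∨ r ∉ cl0 ({l} : Set N)) →
      (ntd P l al be).ka p r ≠ 0) :
    ((H65.planeCub P l W).disc al).roots.Nodup := by
  classical
  have hR := node_reg hc I hl hn
  set d := ntd P l al be with hd
  obtain ⟨S, hS⟩ : ∃ S, S = W - d.pn - d.rn := ⟨_, rfl⟩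
  have hSF : S ∉ cl0 ({l} : Set N) := by
    intro h
    apply hW
    rw [show W = S + d.pn + d.rn by rw [hS]; ring]
    exact add_mem (add_mem h hR.pn) hR.rn
  have hcard : (qp (d.ks S)).roots.toFinset.card = 4 := card_qp one_ne_zero (hR.sep hSF)
  have hne : (H65.planeCub P l W).disc al ≠ 0 := by
    intro h0
    rw [h0, natDegree_zero] at hdeg
    omega
  have hsum : ∀ X, qv (d.ks S) X = 0 → pS d S X + rS d S X = W := fun X hX => by
    rw [(hR.line hSF hX).2.1, hS]
    ring
  have hXf : ∀ X, qv (d.ks S) X = 0 → d.Xf (pS d S X) (W - pS d S X) = X := by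
    intro X hX
    obtain ⟨h1, h2, h3, h4⟩ := hR.line hSF hX
    have h5 := hsum X hX
    rw [← h5, add_sub_cancel_left]
    apply h4
    apply hka _ _ h3
    by_contra hcon
    push Not at hcon
    apply hW
    rw [← h5]
    exact add_mem hcon.1 hcon.2
  have hsub : (qp (d.ks S)).roots.toFinset.image (pS d S) ⊆
      ((H65.planeCub P l W).disc al).roots.toFinset := by
    intro x hx
    obtain ⟨X, hX, rfl⟩ := Finset.mem_image.1 hx
    rw [mem_qp (show d.ks S 4 ≠ 0 from one_ne_zero)] at hX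
    obtain ⟨h1, h2, h3, h4⟩ := hR.line hSF hX
    rw [Multiset.mem_toFinset, mem_roots hne, IsRoot.def, ← hsum X hX, H65.disc_iff hM hn]
    exact h3
  have hinj : Set.InjOn (pS d S) (qp (d.ks S)).roots.toFinset := by
    intro X hX X' hX' hXX
    rw [Finset.mem_coe, mem_qp (show d.ks S 4 ≠ 0 from one_ne_zero)] at hX hX'
    rw [← hXf X hX, ← hXf X' hX', hXX]
  have h1 := Finset.card_le_card hsub
  rw [Finset.card_image_of_injOn hinj, hcard] at h1
  have h2 := ((H65.planeCub P l W).disc al).card_roots'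
  rw [hdeg] at h2
  have h3 := Multiset.toFinset_card_le ((H65.planeCub P l W).disc al).roots
  exact Multiset.toFinset_card_eq_card_iff_nodup.1 (by omega)

theorem disc_simple (hdeg : ((H65.planeCub P l W).disc al).natDegree = 4)
    (hnd : ((H65.planeCub P l W).disc al).roots.Nodup) {x : N}
    (hx : ((H65.planeCub P l W).disc al).eval x = 0) :
    (derivative ((H65.planeCub P l W).disc al)).eval x ≠ 0 := by
  classical
  have hne : (H65.planeCub P l W).disc al ≠ 0 := by
    intro h0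
    rw [h0, natDegree_zero] at hdeg
    omega
  intro h0
  have h5 := (one_lt_rootMultiplicity_iff_isRoot hne).2 ⟨hx, h0⟩
  rw [← count_roots] at h5
  have h6 := Multiset.nodup_iff_count_le_one.1 hnd x
  omega

end

end Vale.Agent.P297.Z2
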