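import Vale.Agent.P297.H212.Z2.Glue
import Vale.Agent.P297.H212.Z2.Simple
import Vale.Agent.P297.H54.T8Fin
import Vale.Agent.P297.H55.Z2.TOne

/-!
The lines through the nodes: a multiple of the cycle of the general line is a relation.
-/

set_option linter.unusedSectionVars false
set_option linter.unusedVariables false

open IntermediateField Polynomial

namespace Vale.Agent.P297.Z2

open Vale.Agent.P297 Vale.Agent.P297.Gen Vale.Agent.P297.H839 Vale.Agent.P297.H600
open Vale.Agent.P297.H729 Vale.Agent.P297.Z3 Vale.Agent.P297.G4 Vale.Agent.P297.H160.Z2Irr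
open Vale.Agent.P297.H212.Z2 Vale.Agent.P297.H72

/-- The tangent lines through the nodes with a coordinate outside `cl0 {l}`. -/
structure GenLine (P : Par) (N : Type) [Field N] [Algebra ℂ N] [IsAlgClosed N] : Prop where
  fw : ∀ l al be p r : N, Transcendental ℂ l → IsNode P l al be →
    (ntd P l al be).b1 p r ^ 2 = 4 * (ntd P l al be).B2 p r * (ntd P l al be).b0 p r →
    (p ∉ cl0 ({l} : Set N) ∨ r ∉ cl0 ({l} : Set N)) →
    (ntd P l al be).ka p r ≠ 0 ∧ (ntd P l al be).B2 p r ≠ 0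
  bw : ∀ l al be X w v : N, Transcendental ℂ l → IsNode P l al be → X ∉ cl0 ({l} : Set N) →
    w ^ 2 = (ntd P l al be).q2 X → v ^ 2 = (ntd P l al be).q4 X →
    (ntd P l al be).sb X w v ≠ 0

/-- **[LINK4]** A line through a node and the four lines through another node in the same plane
which meet it. -/
def Link4 {K : Type} [Field K] [Algebra ℂ K] (P : Par) (x₀ : Fin 5 → K) (N : Type) [Field N]
    [Algebra ℂ N] [IsAlgClosed N] [DecidableEq N] (m : ℤ) : Prop :=
  ∀ l al be al₂ be₂ p r s s' : N, Transcendental ℂ l → NLine P l al be p r s s' → s ≠ 0 →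
    (p ∉ cl0 ({l} : Set N) ∨ r ∉ cl0 ({l} : Set N)) → IsNode P l al₂ be₂ → al ≠ al₂ →
    (∀ x ∈ ((H65.planeCub P l (p + r)).disc al₂).roots,
      (ntd P l al₂ be₂).B2 x (p + r - x) ≠ 0) →
    ((H65.planeCub P l (p + r)).disc al).natDegree = 4 →
    ((H65.planeCub P l (p + r)).disc al).roots.Nodup →
    ((H65.planeCub P l (p + r)).disc al₂).natDegree = 4 →
    ((H65.planeCub P l (p + r)).disc al₂).roots.Nodup →
    (2 : ℤ) • ncyc P x₀ l al be p r s s' +
      ∑ x ∈ ((H65.planeCub P l (p + r)).disc al₂).roots.toFinset,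
        ncyc P x₀ l al₂ be₂ x (p + r - x) (H65.sx P l al al₂ p r s s' x)
          (sp P l al₂ be₂ x (p + r - x) (H65.sx P l al al₂ p r s s' x)) ∈ Rel m K N

section

variable {N : Type} [Field N] [Algebra ℂ N] [IsAlgClosed N] [CharZero N] {F : IntermediateField ℂ N}
  {d : TD N}

/-- the leading coefficient of `T2` -/
theorem Reg.T2_ne (h : Reg F d) (h2 : 2 * d.l ≠ 1) {X : N} (hX : X ∉ F) : d.T2 X ≠ 0 := by
  intro h0
  apply hX
  obtain ⟨m1, m2, m3, -⟩ := h.t_mem
  rw [d.T2_eq] at h0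
  refine G4.root_mem h.cl (c := ![d.t20, d.t21, d.t22, 0, 0]) ?_ ⟨2, ?_⟩ ?_
  · intro j
    fin_cases j
    · exact m3
    · exact m2
    · exact m1
    · exact F.zero_mem
    · exact F.zero_mem
  · change d.al * d.be * (d.l ^ 2 - d.e ^ 2) ≠ 0
    have e1 : d.l ^ 2 - d.e ^ 2 = 2 * d.l - 1 := by
      linear_combination (d.l - d.e - 1) * h.hl
    rw [e1]
    exact mul_ne_zero (mul_ne_zero h.al0 h.be0) (sub_ne_zero.2 h2)
  · change d.t20 + d.t21 * X + d.t22 * X ^ 2 + 0 * X ^ 3 + 0 * X ^ 4 = 0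
    linear_combination h0

/-- the line over a point outside `F` is not defined over `F` -/
theorem Reg.pt_notMem (h : Reg F d) {p r X S a b G : N} (hp : d.Pt p r X S a b G) (hX : X ∉ F) :
    p ∉ F ∨ r ∉ F := by
  by_contra hcon
  push Not at hcon
  apply hX
  refine h.X_mem (hp.T_eq h.he) ?_
  rw [← hp.S_eq]
  exact add_mem (sub_mem hcon.1 h.pn) (sub_mem hcon.2 h.rn)

/-- the line over a point of `F` is defined over `F` -/
theorem Reg.pt_mem (h : Reg F d) (hM : ∀ X, d.q2 X = 0 → d.M1 X ≠ 0) {p r X S a b G : N}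
    (hp : d.Pt p r X S a b G) (hX : X ∈ F) : p ∈ F ∧ r ∈ F := by
  have hS : S ∈ F := h.S_mem (hp.T_eq h.he) hX
  have hcm : d.c ∈ F := add_mem (mul_mem h.be h.pn) (mul_mem h.al h.rn)
  have ha : a ∈ F := by
    have e1 : a = ((X - d.c) - d.al * S) / d.e := by
      rw [eq_div_iff h.e0, ← hp.hX, ← hp.hS, h.he]
      ring
    rw [e1]
    exact div_mem (sub_mem (sub_mem hX hcm) (mul_mem h.al hS)) h.e
  have hb : b ∈ F := by
    have e1 : b = S - a := by rw [← hp.hS]; ring
    rw [e1]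
    exact sub_mem hS ha
  have h2 : (2 : N) ∈ F := ofNat_mem _ 2
  have h4 : (4 : N) ∈ F := ofNat_mem _ 4
  have hQm : d.QX X a b ∈ F := by
    have : d.QX X a b = X * a * b - d.be * d.A * a ^ 2 - d.al * d.C * b ^ 2 := rfl
    rw [this]
    exact sub_mem (sub_mem (mul_mem (mul_mem hX ha) hb) (mul_mem (mul_mem h.be h.A)
      (pow_mem ha 2))) (mul_mem (mul_mem h.al h.C) (pow_mem hb 2))
  have hqm : d.q2 X ∈ F := by
    have : d.q2 X = X ^ 2 - 4 * d.al * d.be * d.A * d.C := rfl
    rw [this]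
    exact sub_mem (pow_mem hX 2) (mul_mem (mul_mem (mul_mem (mul_mem h4 h.al) h.be) h.A) h.C)
  have ht0 : d.t0 X ∈ F := add_mem (add_mem hX (mul_mem h.be h.A)) (mul_mem h.al h.C)
  have hG : G ∈ F := by
    by_cases hq : d.q2 X = 0
    · have hM1 := hM X hq
      have hLf : d.Lf X a b ∈ F := by
        have : d.Lf X a b = (X + 2 * d.be * d.A) * a - (X + 2 * d.al * d.C) * b := rfl
        rw [this]
        exact sub_mem (mul_mem (add_mem hX (mul_mem (mul_mem h2 h.be) h.A)) ha)
          (mul_mem (add_mem hX (mul_mem (mul_mem h2 h.al) h.C)) hb)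
      have hM1m : d.M1 X ∈ F := by
        have : d.M1 X = d.kr - d.kp + d.l * d.t0 X := rfl
        rw [this]
        exact add_mem (sub_mem h.kr h.kp) (mul_mem h.l ht0)
      have e1 : d.l * d.M1 X * G = d.q2 X + d.l * d.Lf X a b - (d.al * d.be *
          (d.pn + a + (d.rn + b)) ^ 2 + d.kp * (d.pn + a) + d.kr * (d.rn + b) + d.w0) := by
        have e2 := hp.hW
        rw [hp.hp, hp.hr] at e2
        unfold TD.W at e2
        unfold TD.M1
        linear_combination e2
      have e3 : G = (d.q2 X + d.l * d.Lf X a b - (d.al * d.be *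
          (d.pn + a + (d.rn + b)) ^ 2 + d.kp * (d.pn + a) + d.kr * (d.rn + b) + d.w0)) /
          (d.l * d.M1 X) := by
        rw [← e1]
        field_simp [h.l0]
      rw [e3]
      refine div_mem (sub_mem (add_mem hqm (mul_mem h.l hLf)) ?_) (mul_mem h.l hM1m)
      exact add_mem (add_mem (add_mem (mul_mem (mul_mem h.al h.be)
        (pow_mem (add_mem (add_mem h.pn ha) (add_mem h.rn hb)) 2))
        (mul_mem h.kp (add_mem h.pn ha))) (mul_mem h.kr (add_mem h.rn hb))) h.w0
    · have e1 : G = d.QX X a b / d.q2 X := by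
        rw [hp.hQ]
        field_simp
      rw [e1]
      exact div_mem hQm hqm
  rw [hp.hp, hp.hr]
  exact ⟨sub_mem (add_mem h.pn ha) (mul_mem h.l hG), add_mem (add_mem h.rn hb) (mul_mem h.l hG)⟩

end

section

variable {N : Type} [Field N] [Algebra ℂ N] [IsAlgClosed N] [CharZero N] {P : Par}
  {K : Type} [Field K] [Algebra ℂ K] {x₀ : Fin 5 → K}
  {l al be : N}

theorem two_l_ne (hl : Transcendental ℂ l) : 2 * l ≠ 1 := by
  intro h
  apply hl
  have : l = algebraMap ℂ N (1 / 2) := by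
    rw [map_div₀, map_one, map_ofNat]
    linear_combination h / 2
  rw [this]
  exact isAlgebraic_algebraMap _

/-- the facts about the function `X` on the general tangent line -/
theorem line_facts (hc : NC P) {f g : ℂ[X]} (I : InvPQ P f g) (hG : GenLine P N)
    (hl : Transcendental ℂ l) (hn : IsNode P l al be) {p r : N}
    (hd : (ntd P l al be).b1 p r ^ 2 = 4 * (ntd P l al be).B2 p r * (ntd P l al be).b0 p r)
    (hg : p ∉ cl0 ({l} : Set N) ∨ r ∉ cl0 ({l} : Set N)) :
    (ntd P l al be).ka p r ≠ 0 ∧ (ntd P l al be).B2 p r ≠ 0 ∧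
      (ntd P l al be).Xf p r ∉ cl0 ({l} : Set N) ∧
      (ntd P l al be).q2 ((ntd P l al be).Xf p r) ≠ 0 ∧
      (ntd P l al be).T2 ((ntd P l al be).Xf p r) ≠ 0 := by
  have hR := node_reg hc I hl hn
  obtain ⟨hk, hB⟩ := hG.fw l al be p r hl hn hd hg
  have hpt := TD.pt_f (d := ntd P l al be) hR.he hk hd
  have hX : (ntd P l al be).Xf p r ∉ cl0 ({l} : Set N) := by
    intro hX
    obtain ⟨h1, h2⟩ := hR.pt_mem (fun X hX => node_M1 hc hl hn hX) hpt hX
    rcases hg with h | h
    · exact h h1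
    · exact h h2
  exact ⟨hk, hB, hX, hR.q2_ne hX, hR.T2_ne (two_l_ne hl) hX⟩

/-- the cycle of a general tangent line in terms of its coordinates `(X, w, v)` -/
theorem nbc_line (hc : NC P) {f g : ℂ[X]} (I : InvPQ P f g) (hG : GenLine P N)
    (hl : Transcendental ℂ l) (hn : IsNode P l al be) {p r s : N}
    (hd : (ntd P l al be).b1 p r ^ 2 = 4 * (ntd P l al be).B2 p r * (ntd P l al be).b0 p r)
    (hs : s ^ 2 = (ntd P l al be).B2 p r)
    (hg : p ∉ cl0 ({l} : Set N) ∨ r ∉ cl0 ({l} : Set N)) :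
    (ntd P l al be).wf p r s ^ 2 = (ntd P l al be).q2 ((ntd P l al be).Xf p r) ∧
    ((ntd P l al be).vf p r s / (al * be)) ^ 2 =
      qv (cq P l al be) ((ntd P l al be).Xf p r) ∧ (ntd P l al be).vf p r s ≠ 0 ∧
    nbc P x₀ l al be ((ntd P l al be).Xf p r) ((ntd P l al be).wf p r s)
      ((ntd P l al be).vf p r s / (al * be)) =
      ncyc P x₀ l al be p r s (sp P l al be p r s) := by
  have hR := node_reg hc I hl hn
  obtain ⟨hk, hB, hX, hq, hT⟩ := line_facts hc I hG hl hn hd hg
  have hs0 : s ≠ 0 := by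
    rintro rfl
    apply hB
    rw [← hs]
    ring
  have hab : al * be ≠ 0 := mul_ne_zero hn.al0 hn.be0
  have hw := TD.wf_sq (d := ntd P l al be) hR.he hR.e0 hk hd hs hs0
  have hv := TD.vf_sq (d := ntd P l al be) hR.he hR.e0 hk hd hs hs0 hq
  have hv0 : (ntd P l al be).vf p r s ≠ 0 := by
    intro h0
    rw [h0] at hv
    exact hR.qc_ne hX (by rw [← hv]; ring)
  refine ⟨hw, ?_, hv0, ?_⟩
  · rw [qv_cq, div_pow, hv]
  · obtain ⟨e1, e2, e3⟩ := TD.bf (d := ntd P l al be) hR.he hR.e0 hk hd hs hs0 hq hT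
    unfold nbc
    rw [show al * be * ((ntd P l al be).vf p r s / (al * be)) = (ntd P l al be).vf p r s by
      rw [mul_div_assoc', mul_div_cancel_left₀ _ hab], e1, e2, e3]

/-- the line with the coordinates `(X, w, v)` -/
theorem nline_XWv (hM : P.M1 = 0) (hc : NC P) {f g : ℂ[X]} (I : InvPQ P f g) (hG : GenLine P N)
    (hl : Transcendental ℂ l) (hn : IsNode P l al be) {X w v : N}
    (hX : X ∉ cl0 ({l} : Set N)) (hw : w ^ 2 = (ntd P l al be).q2 X)
    (hv : v ^ 2 = qv (cq P l al be) X) :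
    let p := (ntd P l al be).pb X w (al * be * v)
    let r := (ntd P l al be).rb X w (al * be * v)
    let s := (ntd P l al be).sb X w (al * be * v)
    NLine P l al be p r s (sp P l al be p r s) ∧ s ≠ 0 ∧
      (p ∉ cl0 ({l} : Set N) ∨ r ∉ cl0 ({l} : Set N)) := by
  intro p r s
  have hR := node_reg hc I hl hn
  have hv' := v_sq hn hv
  have hT := hR.T2_ne (two_l_ne hl) hX
  have hq := hR.q2_ne hX
  have hw0 : w ≠ 0 := by
    rintro rfl
    apply hq
    rw [← hw]
    ring
  have hs0 := hG.bw l al be X w (al * be * v) hl hn hX hw hv'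
  have hpt := TD.pt_b (d := ntd P l al be) hR.he hR.e0 hT hw0 hw hv'
  exact ⟨nline_of hM hn (TD.disc_b hR.he hR.e0 hT hw0 hw hv')
    (TD.sb_sq hR.he hR.e0 hT hw0 hw hv') hs0, hs0, hR.pt_notMem hpt hX⟩

theorem sp_neg (P : Par) (l al be p r s : N) :
    sp P l al be p r (-s) = -sp P l al be p r s := by
  unfold sp
  rw [mul_neg, neg_mul, div_neg]

end

/-! ### The five lines in a plane -/

section

variable {N : Type} [Field N] [Algebra ℂ N] [IsAlgClosed N] [CharZero N] (P : Par)
  (l : N) (t : Fin 3 → N)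

/-- the coordinates `(X, w, v)` of a line -/
noncomputable def xwv (al be p r s : N) : N × N × N :=
  ((ntd P l al be).Xf p r, (ntd P l al be).wf p r s, (ntd P l al be).vf p r s / (al * be))

/-- **The relation between five lines**: a general line through the node `i` and the four lines
through the node `j` in the same plane that meet it. -/
def R4 (i j : Fin 3) (d : Fin 5 → N × N × N) : Prop :=
  i ≠ j ∧ ∃ (p r s : N) (x : Fin 4 → N),
    (ntd P l (nal P (t i)) (nbe P (t i))).b1 p r ^ 2 =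
      4 * (ntd P l (nal P (t i)) (nbe P (t i))).B2 p r *
        (ntd P l (nal P (t i)) (nbe P (t i))).b0 p r ∧
    s ^ 2 = (ntd P l (nal P (t i)) (nbe P (t i))).B2 p r ∧
    (p ∉ cl0 ({l} : Set N) ∨ r ∉ cl0 ({l} : Set N)) ∧ Function.Injective x ∧
    (∀ k, ((H65.planeCub P l (p + r)).disc (nal P (t j))).eval (x k) = 0) ∧
    d 0 = xwv P l (nal P (t i)) (nbe P (t i)) p r s ∧
    ∀ k : Fin 4, d k.succ = xwv P l (nal P (t j)) (nbe P (t j)) (x k) (p + r - x k)
      (H65.sx P l (nal P (t i)) (nal P (t j)) p r s (sp P l (nal P (t i)) (nbe P (t i)) p r s)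
        (x k))

variable {P l t}

theorem map_xwv (g : N ≃ₐ[ℂ] N) (al be p r s : N) : xwv P (g l) (g al) (g be) (g p) (g r) (g s) =
    (g (xwv P l al be p r s).1, g (xwv P l al be p r s).2.1, g (xwv P l al be p r s).2.2) := by
  have h := map_ntd' P g.toAlgHom l al be
  have e1 := TD.map_Xf (ntd P l al be) (g.toAlgHom : N →+* N) p r
  have e2 := TD.map_wf (ntd P l al be) (g.toAlgHom : N →+* N) p r s
  have e3 := TD.map_vf (ntd P l al be) (g.toAlgHom : N →+* N) p r s
  rw [h] at e1 e2 e3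
  unfold xwv
  refine Prod.ext e1.symm (Prod.ext e2.symm ?_)
  change (ntd P (g l) (g al) (g be)).vf (g p) (g r) (g s) / (g al * g be) =
    g ((ntd P l al be).vf p r s / (al * be))
  rw [map_div₀, map_mul]
  exact congrArg (· / (g al * g be)) e3.symm

/-- the distinct nodes have distinct `al` -/
theorem Tri.al_ne (hc : NC P) (hl : Transcendental ℂ l) (H : Tri P l t) {i j : Fin 3}
    (hij : i ≠ j) : nal P (t i) ≠ nal P (t j) := by
  intro h
  have h1 := H.isNode hc hl i
  have h2 := H.isNode hc hl j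
  have h3 : nbe P (t i) = nbe P (t j) := by
    linear_combination h1.sub - h2.sub + h
  have hD := fun k => tD_ne hc (H.tr hc hl k)
  apply hij
  apply H.inj
  unfold nal at h
  rw [h3] at h
  exact mul_right_cancel₀ h2.be0 h

theorem exists_third (i j : Fin 3) (hij : i ≠ j) : ∃ k : Fin 3, i ≠ k ∧ j ≠ k := by
  revert i j
  decide

end

end Vale.Agent.P297.Z2
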