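import Vale.Agent.P297.H212.Z2.NodeC
import Vale.Agent.P297.H521.Z2.NV6
import Vale.Agent.P297.H721.Z2.Gen9
import Vale.Agent.P297.H777.Z2.Link4

/-!
The lines through the nodes, for every nondegenerate parameter.
-/

set_option linter.unusedSectionVars false
set_option linter.unusedVariables false

open Polynomial

namespace Vale.Agent.P297.Z2

open Vale.Agent.P297 Vale.Agent.P297.Gen Vale.Agent.P297.H72 Vale.Agent.P297.H839
open Vale.Agent.P297.H160.Z2Irr

variable {K N : Type} [Field K] [Algebra ℂ K] [Field N] [Algebra ℂ N] [IsAlgClosed N]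
  [CharZero N] {P : Par} {x₀ : Fin 5 → K} {m : ℤ}

theorem NonDeg.good9 (h : NonDeg P) : H55Z.Good9 P N :=
  H721.G9.good9 h.nc h.M1 h.Q0 h.Q1 h.uv h.V h.gh

theorem NonDeg.link4 [DecidableEq N] (h : NonDeg P) (h4 : Algebra.trdeg ℂ N = 4)
    (hx : H160.Z2Irr.IsFF P x₀) : Link4 P x₀ N m :=
  H777.Z2.link4 h.M1 h.nc h4 hx (H55Z.deg9 P) h.good9

/-- **A multiple of the cycle of the general line through a node is a relation.** -/
theorem NonDeg.nodeConst (h : NonDeg P) (h4 : Algebra.trdeg ℂ N = 4)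
    (hx : H160.Z2Irr.IsFF P x₀) : NodeConst P x₀ N m 192 := by
  classical
  obtain ⟨f, g, I⟩ := h.exists_invPQ
  exact Z2.nodeConst h.M1 h.nc I h4 hx h.good9 (h.link4 h4 hx)

end Vale.Agent.P297.Z2
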