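import Vale.Agent.P297.H212.Z2.Inst
import Vale.Agent.P297.H65.Z2.FFin
import Vale.Agent.P297.H55.Z2.Deg
import Vale.Agent.P297.H940.Z2.GenInst

/-!
The lines through the nodes: a multiple of the cycle of the general line is a relation.
-/

set_option linter.unusedSectionVars false
set_option linter.unusedVariables false

open IntermediateField Polynomial

namespace Vale.Agent.P297.Z2

open Vale.Agent.P297 Vale.Agent.P297.Gen Vale.Agent.P297.H839 Vale.Agent.P297.H600
open Vale.Agent.P297.H729 Vale.Agent.P297.Z3 Vale.Agent.P297.G4 Vale.Agent.P297.H160.Z2Irr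
open Vale.Agent.P297.H212.Z2 Vale.Agent.P297.H72

section

variable {N : Type} [Field N] [IsAlgClosed N] [DecidableEq N]

theorem card_roots4 {f : N[X]} (hd : f.natDegree = 4) (hnd : f.roots.Nodup) :
    f.roots.toFinset.card = 4 := by
  rw [Multiset.toFinset_card_of_nodup hnd, ← hd]
  exact IsAlgClosed.card_roots_eq_natDegree

theorem roots_image {f : N[X]} (hd : f.natDegree = 4) (hnd : f.roots.Nodup) {x : Fin 4 → N}
    (hx : Function.Injective x) (h0 : ∀ k, f.eval (x k) = 0) :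
    f.roots.toFinset = Finset.univ.image x := by
  have hne : f ≠ 0 := by
    intro h
    rw [h, natDegree_zero] at hd
    omega
  symm
  apply Finset.eq_of_subset_of_card_le
  · intro y hy
    obtain ⟨k, -, rfl⟩ := Finset.mem_image.1 hy
    rw [Multiset.mem_toFinset, mem_roots hne]
    exact h0 k
  · rw [card_roots4 hd hnd, Finset.card_image_of_injective _ hx, Finset.card_univ, Fintype.card_fin]

theorem exists_roots4 {f : N[X]} (hd : f.natDegree = 4) (hnd : f.roots.Nodup) :
    ∃ x : Fin 4 → N, Function.Injective x ∧ ∀ k, f.eval (x k) = 0 := by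
  let e := f.roots.toFinset.equivFinOfCardEq (card_roots4 hd hnd)
  refine ⟨fun i => (e.symm i : N), ?_, ?_⟩
  · intro i j hij
    exact e.symm.injective (Subtype.ext hij)
  · intro i
    have h1 := (e.symm i).2
    rw [Multiset.mem_toFinset, mem_roots'] at h1
    exact h1.2

end

section

variable {N : Type} [Field N] [Algebra ℂ N] [IsAlgClosed N] [CharZero N] [DecidableEq N] {P : Par}
  {K : Type} [Field K] [Algebra ℂ K] {x₀ : Fin 5 → K} {m : ℤ} {l : N} {t : Fin 3 → N}

theorem others (k : Fin 3) : ∃ a b : Fin 3, a ≠ k ∧ a ≠ b ∧ k ≠ b := by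
  revert k
  decide

theorem disc_deg (hM : P.M1 = 0) (hc : NC P) (hl : Transcendental ℂ l) (H : Tri P l t)
    (k : Fin 3) (W : N) : ((H65.planeCub P l W).disc (nal P (t k))).natDegree = 4 := by
  obtain ⟨a, b, h1, h2, h3⟩ := others k
  exact H65.Cub.disc_natDegree _ (H65.lead_ne hM hc.Q (H.isNode hc hl a) (H.isNode hc hl k)
    (H.isNode hc hl b) (H.al_ne hc hl h1) (H.al_ne hc hl h2) (H.al_ne hc hl h3) W)

theorem plane_gen (hM : P.M1 = 0) (hc : NC P) (hl : Transcendental ℂ l) (H : Tri P l t)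
    {i : Fin 3} {p r s s' : N} (L : NLine P l (nal P (t i)) (nbe P (t i)) p r s s')
    (hg : p ∉ cl0 ({l} : Set N) ∨ r ∉ cl0 ({l} : Set N)) : p + r ∉ cl0 ({l} : Set N) := by
  obtain ⟨a, b, h1, h2, h3⟩ := others i
  exact H65.W_notMem hM hc.Q L (H.isNode hc hl a) (H.isNode hc hl b) (H.al_ne hc hl h1.symm)
    (H.al_ne hc hl h3) (H.al_ne hc hl h2) (node_mem hc hl (H.isNode hc hl i)).1 hg

theorem plane_nodup (hM : P.M1 = 0) (hc : NC P) {f g : ℂ[X]} (I : InvPQ P f g)
    (hG : GenLine P N) (hl : Transcendental ℂ l) (H : Tri P l t) {W : N}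
    (hW : W ∉ cl0 ({l} : Set N)) (k : Fin 3) :
    ((H65.planeCub P l W).disc (nal P (t k))).roots.Nodup :=
  disc_nodup hM hc I hl (H.isNode hc hl k) (disc_deg hM hc hl H k W) hW fun p r hd hg =>
    (hG.fw l _ _ p r hl (H.isNode hc hl k) hd hg).1

/-- the general line through the node `i` is an `NLine` -/
theorem nline_i (hM : P.M1 = 0) (hc : NC P) (hG : GenLine P N) (hl : Transcendental ℂ l)
    (H : Tri P l t) {i : Fin 3} {p r s : N}
    (hd : (ntd P l (nal P (t i)) (nbe P (t i))).b1 p r ^ 2 =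
      4 * (ntd P l (nal P (t i)) (nbe P (t i))).B2 p r *
        (ntd P l (nal P (t i)) (nbe P (t i))).b0 p r)
    (hs : s ^ 2 = (ntd P l (nal P (t i)) (nbe P (t i))).B2 p r)
    (hg : p ∉ cl0 ({l} : Set N) ∨ r ∉ cl0 ({l} : Set N)) :
    s ≠ 0 ∧ NLine P l (nal P (t i)) (nbe P (t i)) p r s
      (sp P l (nal P (t i)) (nbe P (t i)) p r s) := by
  have hs0 : s ≠ 0 := by
    rintro rfl
    apply (hG.fw l _ _ p r hl (H.isNode hc hl i) hd hg).2
    rw [← hs]
    ring
  exact ⟨hs0, nline_of hM (H.isNode hc hl i) hd hs hs0⟩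

/-- a root `x` of the plane cubic at the node `j` -/
theorem root_line (hM : P.M1 = 0) (hc : NC P) (hG : GenLine P N) (hl : Transcendental ℂ l)
    (H : Tri P l t) {j : Fin 3} {W x : N} (hW : W ∉ cl0 ({l} : Set N))
    (hx : ((H65.planeCub P l W).disc (nal P (t j))).eval x = 0) :
    (ntd P l (nal P (t j)) (nbe P (t j))).b1 x (W - x) ^ 2 =
      4 * (ntd P l (nal P (t j)) (nbe P (t j))).B2 x (W - x) *
        (ntd P l (nal P (t j)) (nbe P (t j))).b0 x (W - x) ∧
      (x ∉ cl0 ({l} : Set N) ∨ W - x ∉ cl0 ({l} : Set N)) := by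
  refine ⟨?_, ?_⟩
  · rw [← H65.disc_iff hM (H.isNode hc hl j), show x + (W - x) = W by ring]
    exact hx
  · by_contra hcon
    push Not at hcon
    apply hW
    have := add_mem hcon.1 hcon.2
    rwa [show x + (W - x) = W by ring] at this

theorem exists_R4 {i j : Fin 3} (hij : i ≠ j) {p r s : N} {x : Fin 4 → N}
    (hd : (ntd P l (nal P (t i)) (nbe P (t i))).b1 p r ^ 2 =
      4 * (ntd P l (nal P (t i)) (nbe P (t i))).B2 p r *
        (ntd P l (nal P (t i)) (nbe P (t i))).b0 p r)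
    (hs : s ^ 2 = (ntd P l (nal P (t i)) (nbe P (t i))).B2 p r)
    (hg : p ∉ cl0 ({l} : Set N) ∨ r ∉ cl0 ({l} : Set N)) (hx1 : Function.Injective x)
    (hx2 : ∀ k, ((H65.planeCub P l (p + r)).disc (nal P (t j))).eval (x k) = 0) :
    ∃ d, R4 P l t i j d :=
  ⟨Fin.cons (xwv P l (nal P (t i)) (nbe P (t i)) p r s) fun k =>
    xwv P l (nal P (t j)) (nbe P (t j)) (x k) (p + r - x k)
      (H65.sx P l (nal P (t i)) (nal P (t j)) p r s (sp P l (nal P (t i)) (nbe P (t i)) p r s)
        (x k)), hij, p, r, s, x, hd, hs, hg, hx1, hx2, rfl, fun k => rfl⟩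

/-- the automorphisms over `cl0 {l}` fix the nodes -/
theorem fix_ab (hc : NC P) (hl : Transcendental ℂ l) (H : Tri P l t) (i : Fin 3) {g : N ≃ₐ[ℂ] N}
    (hg : ∀ z ∈ cl0 ({l} : Set N), g z = z) :
    g l = l ∧ g (nal P (t i)) = nal P (t i) ∧ g (nbe P (t i)) = nbe P (t i) := by
  obtain ⟨h1, h2⟩ := node_mem hc hl (H.isNode hc hl i)
  exact ⟨hg _ (subset_cl0 _ rfl), hg _ h1, hg _ h2⟩

/-- **The facts about the lines through the nodes.** -/
theorem side (hM : P.M1 = 0) (hc : NC P) {f g : ℂ[X]} (I : InvPQ P f g)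
    (h4 : Algebra.trdeg ℂ N = 4) (hx : H160.Z2Irr.IsFF P x₀)
    (h9 : H55Z.Good9 P N) (hG : GenLine P N) (hL4 : Link4 P x₀ N m)
    (hl : Transcendental ℂ l) (H : Tri P l t) :
    Side t (fun i => cq P l (nal P (t i)) (nbe P (t i))) l
      (fun i X => (ntd P l (nal P (t i)) (nbe P (t i))).q2 X) (Bw P x₀)
      (fun i X w v => nbc P x₀ l (nal P (t i)) (nbe P (t i)) X w v) (R4 P l t)
      (Rel m K N) where
  hB := by
    intro i X w v h
    have hlt : lt P (t i) = l := (H.l_eq hc hl i).symm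
    have h1 : w ^ 2 = q2t P (t i) X := by
      unfold q2t
      rw [hlt]
      exact h.hw
    rw [Bw_eq h1]
    unfold nbt
    rw [hlt]
  T1 := by
    intro i X w v h
    obtain ⟨h1, h2, h3⟩ := nline_XWv hM hc I hG hl (H.isNode hc hl i) h.gen h.hw h.hv
    have h5 := H55Z.t1' (m := m) h4 hx hc h9 hl h1 h3
    have e1 : nal P (t i) * nbe P (t i) * -v = -(nal P (t i) * nbe P (t i) * v) := by ring
    have h6 : nbc P x₀ l (nal P (t i)) (nbe P (t i)) X (-w) (-v) =
        ncyc P x₀ l (nal P (t i)) (nbe P (t i))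
          ((ntd P l (nal P (t i)) (nbe P (t i))).pb X w (nal P (t i) * nbe P (t i) * v))
          ((ntd P l (nal P (t i)) (nbe P (t i))).rb X w (nal P (t i) * nbe P (t i) * v))
          (-(ntd P l (nal P (t i)) (nbe P (t i))).sb X w (nal P (t i) * nbe P (t i) * v))
          (-sp P l (nal P (t i)) (nbe P (t i))
            ((ntd P l (nal P (t i)) (nbe P (t i))).pb X w (nal P (t i) * nbe P (t i) * v))
            ((ntd P l (nal P (t i)) (nbe P (t i))).rb X w (nal P (t i) * nbe P (t i) * v))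
            ((ntd P l (nal P (t i)) (nbe P (t i))).sb X w (nal P (t i) * nbe P (t i) * v))) := by
      unfold nbc
      rw [e1, TD.pb_neg, TD.rb_neg, TD.sb_neg, sp_neg]
    rw [h6]
    exact h5
  T2 := by
    intro i X w v h
    exact t2 hc h4 hx hl (H.isNode hc hl i) h.gen h.hw h.hv
  ex := by
    intro i j hij
    obtain ⟨X, hX⟩ := exists_notMem1 h4 l l
    have hX' : X ∉ cl0 ({l} : Set N) := by
      intro h
      exact hX (le_clo _ _ h)
    obtain ⟨w, hw⟩ := IsAlgClosed.exists_pow_nat_eq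
      ((ntd P l (nal P (t i)) (nbe P (t i))).q2 X) two_pos
    obtain ⟨v, hv⟩ := IsAlgClosed.exists_pow_nat_eq
      (qv (cq P l (nal P (t i)) (nbe P (t i))) X) two_pos
    obtain ⟨h1, h2, h3⟩ := nline_XWv hM hc I hG hl (H.isNode hc hl i) hX' hw hv
    have hW := plane_gen hM hc hl H h1 h3
    obtain ⟨x, hx1, hx2⟩ := exists_roots4 (disc_deg hM hc hl H j _)
      (plane_nodup hM hc I hG hl H hW j)
    exact exists_R4 hij (h1.disc hM) (h1.facts hM).1 h3 hx1 hx2
  fst := by
    rintro i j d ⟨hij, p, r, s, x, hd, hs, hg, hx1, hx2, h0, hk⟩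
    obtain ⟨k1, k2, k3, k4, k5⟩ := line_facts hc I hG hl (H.isNode hc hl i) hd hg
    obtain ⟨n1, n2, n3, n4⟩ := nbc_line (x₀ := x₀) hc I hG hl (H.isNode hc hl i) hd hs hg
    rw [h0]
    exact ⟨k3, n1, n2⟩
  on := by
    rintro i j d ⟨hij, p, r, s, x, hd, hs, hg, hx1, hx2, h0, hk⟩ k
    obtain ⟨hs0, L⟩ := nline_i hM hc hG hl H hd hs hg
    have hW := plane_gen hM hc hl H L hg
    obtain ⟨r1, r2⟩ := root_line hM hc hG hl H hW (hx2 k)
    have hd1 := disc_simple (disc_deg hM hc hl H i (p + r))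
      (plane_nodup hM hc I hG hl H hW i) (x := p) (by
        rw [H65.disc_iff hM (H.isNode hc hl i)]
        exact hd)
    have hsx := H65.sx_sq hM L (H.isNode hc hl j) (H.al_ne hc hl hij) hs0 hd1 (hx2 k)
    obtain ⟨k1, k2, k3, k4, k5⟩ := line_facts hc I hG hl (H.isNode hc hl j) r1 r2
    obtain ⟨n1, n2, n3, n4⟩ := nbc_line (x₀ := x₀) hc I hG hl (H.isNode hc hl j) r1 hsx r2
    rw [hk k]
    exact ⟨k3, n1, n2⟩
  inv := by
    rintro i j d ⟨hij, p, r, s, x, hd, hs, hg, hx1, hx2, h0, hk⟩ g hgf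
    obtain ⟨gl, ga, gb⟩ := fix_ab hc hl H i hgf
    obtain ⟨-, ga', gb'⟩ := fix_ab hc hl H j hgf
    have hnt : (ntd P l (nal P (t i)) (nbe P (t i))).map (g.toAlgHom : N →+* N) =
        ntd P l (nal P (t i)) (nbe P (t i)) := by
      rw [map_ntd']
      change ntd P (g l) (g _) (g _) = _
      rw [gl, ga, gb]
    have eb2 := TD.map_B2 (ntd P l (nal P (t i)) (nbe P (t i))) (g.toAlgHom : N →+* N) p r
    have eb1 := TD.map_b1 (ntd P l (nal P (t i)) (nbe P (t i))) (g.toAlgHom : N →+* N) p r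
    have eb0 := TD.map_b0 (ntd P l (nal P (t i)) (nbe P (t i))) (g.toAlgHom : N →+* N) p r
    rw [hnt] at eb2 eb1 eb0
    change g _ = (ntd P l (nal P (t i)) (nbe P (t i))).B2 (g p) (g r) at eb2
    change g _ = (ntd P l (nal P (t i)) (nbe P (t i))).b1 (g p) (g r) at eb1
    change g _ = (ntd P l (nal P (t i)) (nbe P (t i))).b0 (g p) (g r) at eb0
    have hgm : ∀ z, z ∉ cl0 ({l} : Set N) → g z ∉ cl0 ({l} : Set N) := by
      intro z hz h
      apply hz
      have h1 := hgf _ h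
      rw [g.injective h1] at h
      exact h
    refine ⟨hij, g p, g r, g s, fun k => g (x k), ?_, ?_, hg.imp (hgm p) (hgm r),
      fun a b hab => hx1 (g.injective hab), fun k => ?_, ?_, fun k => ?_⟩
    · rw [← eb1, ← eb2, ← eb0, ← map_pow, hd, map_mul, map_mul, map_ofNat]
    · rw [← eb2, ← hs, map_pow]
    · have e1 := H65.map_disc_planeCub P g.toAlgHom l (p + r) (nal P (t j))
      change _ = (H65.planeCub P (g l) (g (p + r))).disc (g (nal P (t j))) at e1
      rw [gl, ga', map_add] at e1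
      rw [← e1]
      change (Polynomial.map (g.toAlgHom : N →+* N) _).eval ((g.toAlgHom : N →+* N) (x k)) = 0
      rw [Polynomial.eval_map_apply, hx2 k, map_zero]
    · change (g (d 0).1, g (d 0).2.1, g (d 0).2.2) = _
      rw [h0, ← map_xwv, gl, ga, gb]
    · change (g (d k.succ).1, g (d k.succ).2.1, g (d k.succ).2.2) = _
      have e1 := H65.map_sx P g.toAlgHom l (nal P (t i)) (nal P (t j)) p r s
        (sp P l (nal P (t i)) (nbe P (t i)) p r s) (x k)
      change g _ = H65.sx P (g l) (g _) (g _) (g p) (g r) (g s) (g _) (g (x k)) at e1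
      have e2 := map_sp P g.toAlgHom l (nal P (t i)) (nbe P (t i)) p r s
      change g _ = sp P (g l) (g _) (g _) (g p) (g r) (g s) at e2
      rw [gl, ga, gb] at e2
      rw [gl, ga, ga', e2] at e1
      rw [hk k, ← map_xwv, gl, ga', gb', e1, map_sub, map_add]
  L4 := by
    rintro i j d ⟨hij, p, r, s, x, hd, hs, hg, hx1, hx2, h0, hk⟩
    obtain ⟨hs0, L⟩ := nline_i hM hc hG hl H hd hs hg
    have hW := plane_gen hM hc hl H L hg
    have hd1 := disc_simple (disc_deg hM hc hl H i (p + r))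
      (plane_nodup hM hc I hG hl H hW i) (x := p) (by
        rw [H65.disc_iff hM (H.isNode hc hl i)]
        exact hd)
    have hne : (H65.planeCub P l (p + r)).disc (nal P (t j)) ≠ 0 := by
      intro h
      have := disc_deg hM hc hl H j (p + r)
      rw [h, natDegree_zero] at this
      omega
    have key := hL4 l _ _ _ _ p r s _ hl L hs0 hg (H.isNode hc hl j) (H.al_ne hc hl hij) (by
      intro y hy
      obtain ⟨r1, r2⟩ := root_line hM hc hG hl H hW (mem_roots'.1 hy).2
      exact (hG.fw l _ _ _ _ hl (H.isNode hc hl j) r1 r2).2)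
      (disc_deg hM hc hl H i _) (plane_nodup hM hc I hG hl H hW i)
      (disc_deg hM hc hl H j _) (plane_nodup hM hc I hG hl H hW j)
    rw [roots_image (disc_deg hM hc hl H j _) (plane_nodup hM hc I hG hl H hW j) hx1 hx2,
      Finset.sum_image (fun a _ b _ hab => hx1 hab)] at key
    have n0 := (nbc_line (x₀ := x₀) hc I hG hl (H.isNode hc hl i) hd hs hg).2.2.2
    have e0 : nbc P x₀ l (nal P (t i)) (nbe P (t i)) (d 0).1 (d 0).2.1 (d 0).2.2 =
        ncyc P x₀ l (nal P (t i)) (nbe P (t i)) p r s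
          (sp P l (nal P (t i)) (nbe P (t i)) p r s) := by
      rw [h0]
      exact n0
    have ek : ∀ k : Fin 4, nbc P x₀ l (nal P (t j)) (nbe P (t j)) (d k.succ).1 (d k.succ).2.1
        (d k.succ).2.2 = ncyc P x₀ l (nal P (t j)) (nbe P (t j)) (x k) (p + r - x k)
          (H65.sx P l (nal P (t i)) (nal P (t j)) p r s
            (sp P l (nal P (t i)) (nbe P (t i)) p r s) (x k))
          (sp P l (nal P (t j)) (nbe P (t j)) (x k) (p + r - x k)
            (H65.sx P l (nal P (t i)) (nal P (t j)) p r s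
              (sp P l (nal P (t i)) (nbe P (t i)) p r s) (x k))) := by
      intro k
      obtain ⟨r1, r2⟩ := root_line hM hc hG hl H hW (hx2 k)
      have hsx := H65.sx_sq hM L (H.isNode hc hl j) (H.al_ne hc hl hij) hs0 hd1 (hx2 k)
      rw [hk k]
      exact (nbc_line (x₀ := x₀) hc I hG hl (H.isNode hc hl j) r1 hsx r2).2.2.2
    change (2 : ℤ) • nbc P x₀ l (nal P (t i)) (nbe P (t i)) (d 0).1 (d 0).2.1 (d 0).2.2 +
      ∑ k : Fin 4, nbc P x₀ l (nal P (t j)) (nbe P (t j)) (d k.succ).1 (d k.succ).2.1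
        (d k.succ).2.2 ∈ _
    rw [e0, Finset.sum_congr rfl fun k _ => ek k]
    exact key
  F4 := by
    rintro i j d ⟨hij, p, r, s, x, hd, hs, hg, hx1, hx2, h0, hk⟩ D hD
    obtain ⟨hs0, L⟩ := nline_i hM hc hG hl H hd hs hg
    have hW := plane_gen hM hc hl H L hg
    have hd1 := disc_simple (disc_deg hM hc hl H i (p + r))
      (plane_nodup hM hc I hG hl H hW i) (x := p) (by
        rw [H65.disc_iff hM (H.isNode hc hl i)]
        exact hd)
    obtain ⟨b, hb1, hb2⟩ := exists_third i j hij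
    have hl1 : l ≠ 1 := by
      rintro rfl
      exact hl isAlgebraic_one
    obtain ⟨k1, k2, k3, k4, k5⟩ := line_facts hc I hG hl (H.isNode hc hl i) hd hg
    obtain ⟨n1, n2, n3, n4⟩ := nbc_line (x₀ := x₀) hc I hG hl (H.isNode hc hl i) hd hs hg
    have hroot : ∀ y ∈ ((H65.planeCub P l (p + r)).disc (nal P (t j))).roots, _ := fun y hy =>
      root_line hM hc hG hl H hW (mem_roots'.1 hy).2
    have hline : ∀ y ∈ ((H65.planeCub P l (p + r)).disc (nal P (t j))).roots, _ := fun y hy =>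
      line_facts hc I hG hl (H.isNode hc hl j) (hroot y hy).1 (hroot y hy).2
    have hnb : ∀ y ∈ ((H65.planeCub P l (p + r)).disc (nal P (t j))).roots, _ := fun y hy =>
      nbc_line (x₀ := x₀) hc I hG hl (H.isNode hc hl j) (hroot y hy).1
        (H65.sx_sq hM L (H.isNode hc hl j) (H.al_ne hc hl hij) hs0 hd1 (mem_roots'.1 hy).2)
        (hroot y hy).2
    have key := H65.four_F4_fin hM hc.Q hl1 L (H.isNode hc hl j) (H.isNode hc hl b)
      (H.al_ne hc hl hij) (H.al_ne hc hl hb1) (H.al_ne hc hl hb2) hs0 k1 k4 n3 hd1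
      (plane_nodup hM hc I hG hl H hW j) (fun y hy => (hline y hy).2.1)
      (fun y hy => (hline y hy).1) (fun y hy => (hline y hy).2.2.2.1)
      (fun y hy => (hnb y hy).2.2.1) D (fun z => hD _ (IntermediateField.algebraMap_mem _ z))
      (hD _ (subset_cl0 _ rfl)) (hD _ (node_mem hc hl (H.isNode hc hl i)).1)
      (hD _ (node_mem hc hl (H.isNode hc hl j)).1)
    rw [roots_image (disc_deg hM hc hl H j _) (plane_nodup hM hc I hG hl H hW j) hx1 hx2,
      Finset.sum_image (fun a _ b _ hab => hx1 hab)] at key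
    rw [h0, Finset.sum_congr rfl fun k _ => by rw [hk k]]
    exact key

omit [DecidableEq N] in
/-- the general tangent lines -/
theorem genLine (hc : NC P) {f g : ℂ[X]} (I : InvPQ P f g) : GenLine P N := by
  have key : ∀ l al be : N, Transcendental ℂ l → IsNode P l al be →
      ∃ d' : TD (cl0 ({l} : Set N)), GD (cl0 ({l} : Set N)) d' ∧ up d' = ntd P l al be :=
    fun l al be hl hn => gd_of P hc hl hn (node_reg hc I hl hn).disc
  constructor
  · intro l al be p r hl hn hd hg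
    obtain ⟨d', h, hup⟩ := key l al be hl hn
    rw [← hup] at hd ⊢
    obtain ⟨s, hs⟩ := IsAlgClosed.exists_pow_nat_eq ((up d').B2 p r) two_pos
    refine ⟨h.ka_ne hg hd, ?_⟩
    rw [← hs]
    exact pow_ne_zero 2 (h.s_ne hg hd hs)
  · intro l al be X w v hl hn hX hw hv
    obtain ⟨d', h, hup⟩ := key l al be hl hn
    have hR := node_reg hc I hl hn
    have hT := hR.T2_ne (two_l_ne hl) hX
    have hq := hR.q2_ne hX
    have hw0 : w ≠ 0 := by
      rintro rfl
      apply hq
      rw [← hw]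
      ring
    have h1 := TD.Sb_T (d := ntd P l al be) hR.he hT hw hv
    unfold TD.sb
    refine div_ne_zero ?_ (mul_ne_zero hR.e0 hw0)
    rw [← hup] at h1 ⊢
    exact h.nH hX h1

/-- **[T]** -/
theorem nodeConst (hM : P.M1 = 0) (hc : NC P) {f g : ℂ[X]} (I : InvPQ P f g)
    (h4 : Algebra.trdeg ℂ N = 4) (hx : H160.Z2Irr.IsFF P x₀)
    (h9 : H55Z.Good9 P N) (hL4 : Link4 P x₀ N m) :
    NodeConst P x₀ N m 192 := by
  intro l al be p r s s' hl L hg
  have hG : GenLine P N := genLine hc I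
  obtain ⟨t, H⟩ := exists_tri hc hl
  obtain ⟨i, e1, e2, -⟩ := H.exists_eq hc hl L.node
  subst e1 e2
  have T := H.triD hc I h4 hl
  have hroot : ∀ i, ∃ ε, qv (cq P l (nal P (t i)) (nbe P (t i))) ε = 0 := fun i =>
    q_root _ (T.disc i)
  choose ε hε using hroot
  obtain ⟨Φ, hΦ, h8⟩ := H54.tri_side T I.degp I.degq I.disc I.nt rfl rfl
    (star3 (m := m) hx t (fun i => cq P l (nal P (t i)) (nbe P (t i))) l) hε
  have hd := L.disc hM
  have hs := (L.facts hM).1
  obtain ⟨k1, k2, k3, k4, k5⟩ := line_facts hc I hG hl (H.isNode hc hl i) hd hg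
  obtain ⟨n1, n2, n3, n4⟩ := nbc_line (x₀ := x₀) hc I hG hl (H.isNode hc hl i) hd hs hg
  have hs0 : s ≠ 0 := by
    rintro rfl
    apply k2
    rw [← hs]
    ring
  have h1 := (side hM hc I h4 hx h9 hG hL4 hl H).glue T hε Φ hΦ (n := 8)
    (fun P _ => h8 P) (i := i) ⟨k3, n1, n2⟩
  change ((24 * 8 : ℤ)) • nbc P x₀ l (nal P (t i)) (nbe P (t i)) _ _ _ ∈ _ at h1
  rw [n4, ← L.s'_eq hM hs0] at h1
  exact h1

end

end Vale.Agent.P297.Z2
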