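import Vale.Agent.P297.H940.Z2.Inst
import Vale.Agent.P297.H10.Z2.TDMap
import Vale.Agent.P297.H600.QDict
import Vale.Agent.P297.H424.G4.TDef

/-!
The four tangent lines through a node in a general plane `p + r = const`: the equation between `X`
and `S` is monic of degree four in `X`.
-/

set_option linter.unusedSectionVars false
set_option linter.unusedVariables false

open IntermediateField Polynomial

namespace Vale.Agent.P297.Z2

open Vale.Agent.P297 Vale.Agent.P297.Gen Vale.Agent.P297.H839 Vale.Agent.P297.H600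
open Vale.Agent.P297.H729 Vale.Agent.P297.Z3 Vale.Agent.P297.G4

namespace TD

section ring

variable {R : Type} [CommRing R] (d : TD R)

def t22 : R := d.al * d.be * (d.l ^ 2 - d.e ^ 2)

def t21 : R := d.l * d.al * d.be * (d.l * d.h1 + d.mu0)

def t20 : R := d.al * d.be * (d.l * d.mu0 * d.h1 - d.e ^ 2 * d.Q20)

def g1 : R := d.al + d.be

def g0 : R := 2 * d.al * d.be * (d.A + d.C)

def t13 : R := d.e * d.Y11 - d.l ^ 2 * d.g1

def t12 : R := d.e * d.Y10 - d.l * (d.l * d.g0 + d.mu0 * d.g1 - d.l * d.g1 * d.c)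

def t11 : R := d.e * d.Q20 * d.Y11 - d.l * (d.mu0 * d.g0 - (d.l * d.g0 + d.mu0 * d.g1) * d.c)

def t10 : R := d.e * d.Q20 * d.Y10 + d.l * d.mu0 * d.g0 * d.c

def t03 : R := d.e * d.Y01 + d.l * (d.l * d.h0 + d.mu0 - 2 * d.c * d.l)

def t02 : R := d.e * (d.Y00 + d.Q20 * d.Y02) + d.l * (d.mu0 * d.h0 -
  2 * d.c * (d.l * d.h0 + d.mu0) + d.c ^ 2 * d.l)

def t01 : R := d.e * d.Q20 * d.Y01 + d.l * (d.c ^ 2 * (d.l * d.h0 + d.mu0) -
  2 * d.c * d.mu0 * d.h0)

def t00 : R := d.e * d.Q20 * d.Y00 + d.l * d.c ^ 2 * d.mu0 * d.h0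

theorem q2_eq (X : R) : d.q2 X = X ^ 2 + d.Q20 := by unfold q2 Q20; ring

theorem y1_eq (X : R) : d.y1 X = d.Y11 * X + d.Y10 := by unfold y1 Y11 Y10 r1; ring

theorem y0_eq (X : R) : d.y0 X = d.Y02 * X ^ 2 + d.Y01 * X + d.Y00 := by
  unfold y0 Y02 Y01 Y00 q2 Q20 t0 h0; ring

theorem M1_eq (X : R) : d.M1 X = d.l * X + d.mu0 := by unfold M1 mu0 t0 h0; ring

theorem t0_eq (X : R) : d.t0 X = X + d.h0 := by unfold t0 h0; ring

theorem T2_eq (X : R) : d.T2 X = d.t22 * X ^ 2 + d.t21 * X + d.t20 := by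
  unfold T2 y2 d2 t1
  rw [d.q2_eq, d.M1_eq]
  unfold t22 t21 t20 h1
  ring

theorem T1_eq (X : R) : d.T1 X = d.t13 * X ^ 3 + d.t12 * X ^ 2 + d.t11 * X + d.t10 := by
  unfold T1 d1 r1
  rw [d.q2_eq, d.M1_eq, d.y1_eq]
  unfold t13 t12 t11 t10 g1 g0
  ring

theorem T0_eq (hl : d.l + d.e = 1) (X : R) :
    d.T0 X = X ^ 4 + d.t03 * X ^ 3 + d.t02 * X ^ 2 + d.t01 * X + d.t00 := by
  unfold T0 d0
  rw [d.q2_eq, d.M1_eq, d.y0_eq, d.t0_eq]
  unfold t03 t02 t01 t00
  have h : d.e * d.Y02 + d.l ^ 2 = 1 := by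
    unfold Y02
    linear_combination (d.l + d.e + 1) * hl
  linear_combination X ^ 4 * h

/-- the coefficients of the quartic in `X` -/
def ks (S : R) : Fin 5 → R :=
  ![d.t20 * S ^ 2 + d.t10 * S + d.t00, d.t21 * S ^ 2 + d.t11 * S + d.t01,
    d.t22 * S ^ 2 + d.t12 * S + d.t02, d.t13 * S + d.t03, 1]

theorem T_eq (hl : d.l + d.e = 1) (X S : R) :
    d.T2 X * S ^ 2 + d.T1 X * S + d.T0 X = qv (d.ks S) X := by
  rw [d.T2_eq, d.T1_eq, d.T0_eq hl]
  change _ = (d.t20 * S ^ 2 + d.t10 * S + d.t00) + (d.t21 * S ^ 2 + d.t11 * S + d.t01) * X +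
    (d.t22 * S ^ 2 + d.t12 * S + d.t02) * X ^ 2 + (d.t13 * S + d.t03) * X ^ 3 + 1 * X ^ 4
  ring

end ring

section poly

variable {N : Type} [Field N] (d : TD N)

/-- the derivative of the discriminant at a common root -/
theorem double_root (he : d.e = d.be - d.al) {X₀ : N} (h2 : d.T2 X₀ = 0) (h1 : d.T1 X₀ = 0)
    (h0 : d.T0 X₀ = 0) :
    d.e ^ 2 * (2 * X₀ * d.q4 X₀ + d.q2 X₀ * q1 d.qc X₀) = 0 := by
  have hm : ∀ z : N, (d.map (Polynomial.C : N →+* N[X])).map (evalRingHom X₀) = d := by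
    intro z
    simp only [TD.map, coe_evalRingHom, eval_C]
  have hm := hm 0
  have k1 := (d.map (Polynomial.C : N →+* N[X])).disc_T (by simp only [TD.map]; rw [he, C_sub])
    (X : N[X])
  have e2 : ((d.map (Polynomial.C : N →+* N[X])).T2 (X : N[X])).eval X₀ = 0 := by
    have := (d.map (Polynomial.C : N →+* N[X])).map_T2 (evalRingHom X₀) (X : N[X])
    rw [hm] at this
    simp only [coe_evalRingHom, eval_X] at this
    rw [this, h2]
  have e1 : ((d.map (Polynomial.C : N →+* N[X])).T1 (X : N[X])).eval X₀ = 0 := by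
    have := (d.map (Polynomial.C : N →+* N[X])).map_T1 (evalRingHom X₀) (X : N[X])
    rw [hm] at this
    simp only [coe_evalRingHom, eval_X] at this
    rw [this, h1]
  have e0 : ((d.map (Polynomial.C : N →+* N[X])).T0 (X : N[X])).eval X₀ = 0 := by
    have := (d.map (Polynomial.C : N →+* N[X])).map_T0 (evalRingHom X₀) (X : N[X])
    rw [hm] at this
    simp only [coe_evalRingHom, eval_X] at this
    rw [this, h0]
  have eq2 : (d.map (Polynomial.C : N →+* N[X])).q2 (X : N[X]) = X ^ 2 + Polynomial.C d.Q20 := by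
    simp only [q2, Q20, TD.map, C_neg, C_mul, map_ofNat]
    ring
  have eq4 : (d.map (Polynomial.C : N →+* N[X])).q4 (X : N[X]) = Polynomial.C (d.qc 0) + Polynomial.C (d.qc 1) * X +
      Polynomial.C (d.qc 2) * X ^ 2 + Polynomial.C (d.qc 3) * X ^ 3 + Polynomial.C (d.qc 4) * X ^ 4 := by
    unfold q4 qv
    rw [← d.map_qc Polynomial.C 0, ← d.map_qc Polynomial.C 1, ← d.map_qc Polynomial.C 2, ← d.map_qc Polynomial.C 3, ← d.map_qc Polynomial.C 4]
  have k2 := congrArg (fun f => eval X₀ (derivative f)) k1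
  simp only [derivative_sub, derivative_mul, derivative_pow, eval_sub, eval_mul, eval_add,
    eval_pow, e0, e1, e2, eq2, eq4] at k2
  simp only [TD.map, derivative_add, derivative_C, derivative_mul, derivative_X_pow, derivative_X,
    derivative_ofNat, eval_add, eval_mul, eval_C, eval_pow, eval_X, eval_zero, eval_one,
    Nat.cast_ofNat, map_ofNat, eval_ofNat] at k2
  rw [d.q2_eq]
  unfold q4 qv q1
  linear_combination -k2

end poly

end TD

end Vale.Agent.P297.Z2
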