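import Vale.Agent.P297.H212.Z2.Quart
import Vale.Agent.P297.H927.DerCl

/-!
The four tangent lines through a node in a general plane: genericity and separability.
-/

set_option linter.unusedSectionVars false
set_option linter.unusedVariables false

open IntermediateField Polynomial

namespace Vale.Agent.P297.Z2

open Vale.Agent.P297 Vale.Agent.P297.Gen Vale.Agent.P297.H839 Vale.Agent.P297.H600
open Vale.Agent.P297.H729 Vale.Agent.P297.Z3 Vale.Agent.P297.G4

/-- the polynomial with the given coefficients -/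
noncomputable def qp {N : Type} [Field N] (c : Fin 5 → N) : N[X] :=
  C (c 4) * X ^ 4 + C (c 3) * X ^ 3 + C (c 2) * X ^ 2 + C (c 1) * X + C (c 0)

theorem eval_qp {N : Type} [Field N] (c : Fin 5 → N) (x : N) : (qp c).eval x = qv c x := by
  unfold qp qv
  simp only [eval_add, eval_mul, eval_C, eval_pow, eval_X]
  ring

theorem deriv_qp {N : Type} [Field N] (c : Fin 5 → N) (x : N) :
    (derivative (qp c)).eval x = q1 c x := by
  unfold qp q1
  simp only [derivative_add, derivative_C_mul, derivative_X_pow, derivative_X, derivative_C,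
    eval_add, eval_mul, eval_C, eval_pow, eval_X, eval_one, eval_zero, Nat.cast_ofNat, map_ofNat,
    eval_ofNat]
  ring

theorem qp_natDegree {N : Type} [Field N] {c : Fin 5 → N} (h4 : c 4 ≠ 0) :
    (qp c).natDegree = 4 := by
  unfold qp
  compute_degree!

theorem mem_qp {N : Type} [Field N] [DecidableEq N] {c : Fin 5 → N} (h4 : c 4 ≠ 0) {x : N} :
    x ∈ (qp c).roots.toFinset ↔ qv c x = 0 := by
  have h0 : qp c ≠ 0 := by
    intro h
    have := qp_natDegree h4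
    rw [h, natDegree_zero] at this
    omega
  rw [Multiset.mem_toFinset, mem_roots h0, IsRoot.def, eval_qp]

/-- A quartic with simple roots has four roots. -/
theorem card_qp {N : Type} [Field N] [IsAlgClosed N] [CharZero N] [DecidableEq N]
    {c : Fin 5 → N} (h4 : c 4 ≠ 0) (hs : ∀ x, qv c x = 0 → q1 c x ≠ 0) :
    (qp c).roots.toFinset.card = 4 := by
  have hd := qp_natDegree h4
  have h0 : qp c ≠ 0 := by
    intro h0
    rw [h0, natDegree_zero] at hd
    omega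
  have hnd : (qp c).roots.Nodup := by
    rw [Multiset.nodup_iff_count_le_one]
    intro z
    rw [count_roots]
    by_contra hcon
    push Not at hcon
    have := (one_lt_rootMultiplicity_iff_isRoot h0).1 hcon
    apply hs z
    · rw [← eval_qp]
      exact this.1
    · rw [← deriv_qp]
      exact this.2
  rw [Multiset.toFinset_card_of_nodup hnd, ← hd]
  exact IsAlgClosed.card_roots_eq_natDegree

section

variable {N : Type} [Field N] [Algebra ℂ N]

/-- The data of a node over an algebraically closed field `F`. -/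
structure Reg (F : IntermediateField ℂ N) (d : TD N) : Prop where
  cl : Closed F
  al : d.al ∈ F
  be : d.be ∈ F
  l : d.l ∈ F
  e : d.e ∈ F
  A : d.A ∈ F
  C : d.C ∈ F
  pn : d.pn ∈ F
  rn : d.rn ∈ F
  kp : d.kp ∈ F
  kr : d.kr ∈ F
  w0 : d.w0 ∈ F
  he : d.e = d.be - d.al
  hl : d.l + d.e = 1
  e0 : d.e ≠ 0
  l0 : d.l ≠ 0
  al0 : d.al ≠ 0
  be0 : d.be ≠ 0
  disc : 4 * qI d.qc ^ 3 ≠ qJ d.qc ^ 2
  nv : ∀ X, d.q2 X = 0 → d.T2 X = 0 → d.T1 X = 0 → d.T0 X = 0 → False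

variable {F : IntermediateField ℂ N} {d : TD N}

/-- the datum over the subfield -/
def Reg.sub (h : Reg F d) : TD F :=
  ⟨⟨_, h.al⟩, ⟨_, h.be⟩, ⟨_, h.l⟩, ⟨_, h.e⟩, ⟨_, h.A⟩, ⟨_, h.C⟩, ⟨_, h.pn⟩, ⟨_, h.rn⟩, ⟨_, h.kp⟩,
    ⟨_, h.kr⟩, ⟨_, h.w0⟩⟩

theorem Reg.map_sub (h : Reg F d) : h.sub.map (algebraMap F N) = d := rfl

theorem Reg.qc_mem (h : Reg F d) (j : Fin 5) : d.qc j ∈ F := by
  have := h.sub.map_qc (algebraMap F N) j
  rw [h.map_sub] at this
  rw [← this]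
  exact (h.sub.qc j).2

theorem Reg.T2_mem (h : Reg F d) {X : N} (hX : X ∈ F) : d.T2 X ∈ F := by
  have := h.sub.map_T2 (algebraMap F N) ⟨X, hX⟩
  rw [h.map_sub] at this
  change _ = d.T2 X at this
  rw [← this]
  exact (h.sub.T2 ⟨X, hX⟩).2

theorem Reg.T1_mem (h : Reg F d) {X : N} (hX : X ∈ F) : d.T1 X ∈ F := by
  have := h.sub.map_T1 (algebraMap F N) ⟨X, hX⟩
  rw [h.map_sub] at this
  change _ = d.T1 X at this
  rw [← this]
  exact (h.sub.T1 ⟨X, hX⟩).2

theorem Reg.T0_mem (h : Reg F d) {X : N} (hX : X ∈ F) : d.T0 X ∈ F := by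
  have := h.sub.map_T0 (algebraMap F N) ⟨X, hX⟩
  rw [h.map_sub] at this
  change _ = d.T0 X at this
  rw [← this]
  exact (h.sub.T0 ⟨X, hX⟩).2

theorem map_ks {R R' : Type} [CommRing R] [CommRing R'] (f : R →+* R') (d : TD R) (S : R)
    (j : Fin 5) : f (d.ks S j) = (d.map f).ks (f S) j := by
  fin_cases j
  all_goals
    simp only [TD.ks, TD.t22, TD.t21, TD.t20, TD.t13, TD.t12, TD.t11, TD.t10, TD.t03, TD.t02,
      TD.t01, TD.t00, TD.g1, TD.g0, TD.Q20, TD.h0, TD.h1, TD.Y11, TD.Y10, TD.Y02, TD.Y01, TD.Y00,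
      TD.mu0, TD.c, TD.map, Fin.zero_eta, Fin.mk_one, Fin.reduceFinMk, Matrix.cons_val_zero,
      Matrix.cons_val_one, Matrix.cons_val, map_add, map_sub, map_neg, map_mul, map_pow,
      map_ofNat, map_one]

variable [IsAlgClosed N] [CharZero N]

theorem Reg.ks_mem (h : Reg F d) {S : N} (hS : S ∈ F) (j : Fin 5) : d.ks S j ∈ F := by
  have := map_ks (algebraMap F N) h.sub ⟨S, hS⟩ j
  rw [h.map_sub] at this
  change _ = d.ks S j at this
  rw [← this]
  exact (h.sub.ks ⟨S, hS⟩ j).2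

/-- `S` algebraic implies `X` algebraic -/
theorem Reg.X_mem (h : Reg F d) {X S : N} (hT : d.T2 X * S ^ 2 + d.T1 X * S + d.T0 X = 0)
    (hS : S ∈ F) : X ∈ F := by
  rw [d.T_eq h.hl] at hT
  exact G4.root_mem h.cl (h.ks_mem hS) ⟨4, one_ne_zero⟩ hT

theorem Reg.qc_ne (h : Reg F d) {X : N} (hX : X ∉ F) : d.q4 X ≠ 0 := fun h0 =>
  hX (G4.root_mem h.cl h.qc_mem (coeff_ne h.disc) h0)

theorem Reg.q2_ne (h : Reg F d) {X : N} (hX : X ∉ F) : d.q2 X ≠ 0 := by
  intro h0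
  apply hX
  rw [d.q2_eq] at h0
  have hQ : d.Q20 ∈ F := by
    have : d.Q20 = -(4 * d.al * d.be * d.A * d.C) := rfl
    rw [this]
    exact neg_mem (mul_mem (mul_mem (mul_mem (mul_mem (ofNat_mem F 4) h.al) h.be) h.A) h.C)
  refine G4.root_mem h.cl (c := ![d.Q20, 0, 1, 0, 0]) ?_ ⟨2, one_ne_zero⟩ ?_
  · intro j
    fin_cases j
    · exact hQ
    · exact F.zero_mem
    · exact F.one_mem
    · exact F.zero_mem
    · exact F.zero_mem
  · change d.Q20 + 0 * X + 1 * X ^ 2 + 0 * X ^ 3 + 0 * X ^ 4 = 0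
    linear_combination h0

/-- not all the coefficients of the quadratic equation vanish -/
theorem Reg.nvan (h : Reg F d) {X : N} (h2 : d.T2 X = 0) (h1 : d.T1 X = 0) (h0 : d.T0 X = 0) :
    False := by
  by_cases hq : d.q2 X = 0
  · exact h.nv X hq h2 h1 h0
  · have k1 := d.double_root h.he h2 h1 h0
    have k2 := d.disc_T h.he X
    rw [h2, h1, h0] at k2
    have k3 : d.e ^ 2 * d.q2 X ≠ 0 := mul_ne_zero (pow_ne_zero 2 h.e0) hq
    have k4 : d.q4 X = 0 := by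
      apply mul_left_cancel₀ k3
      linear_combination -k2
    have k5 : q1 d.qc X ≠ 0 := q1_ne h.disc k4
    apply k5
    apply mul_left_cancel₀ k3
    rw [k4] at k1
    linear_combination k1

/-- `X` algebraic implies `S` algebraic -/
theorem Reg.S_mem (h : Reg F d) {X S : N} (hT : d.T2 X * S ^ 2 + d.T1 X * S + d.T0 X = 0)
    (hX : X ∈ F) : S ∈ F := by
  refine G4.root_mem h.cl (c := ![d.T0 X, d.T1 X, d.T2 X, 0, 0]) ?_ ?_ ?_
  · intro j
    fin_cases j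
    · exact h.T0_mem hX
    · exact h.T1_mem hX
    · exact h.T2_mem hX
    · exact F.zero_mem
    · exact F.zero_mem
  · by_contra hcon
    push Not at hcon
    exact h.nvan (hcon 2) (hcon 1) (hcon 0)
  · change d.T0 X + d.T1 X * S + d.T2 X * S ^ 2 + 0 * S ^ 3 + 0 * S ^ 4 = 0
    linear_combination hT

/-- the derivative with respect to `S` -/
theorem Reg.TS_ne (h : Reg F d) {X S : N} (hT : d.T2 X * S ^ 2 + d.T1 X * S + d.T0 X = 0)
    (hX : X ∉ F) : 2 * d.T2 X * S + d.T1 X ≠ 0 := by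
  intro h0
  have k2 := d.disc_T h.he X
  have k3 : d.e ^ 2 * d.q2 X * d.q4 X ≠ 0 :=
    mul_ne_zero (mul_ne_zero (pow_ne_zero 2 h.e0) (h.q2_ne hX)) (h.qc_ne hX)
  apply k3
  rw [← k2]
  linear_combination (2 * d.T2 X * S + d.T1 X) * h0 - 4 * d.T2 X * hT

theorem map_t {R R' : Type} [CommRing R] [CommRing R'] (f : R →+* R') (d : TD R) :
    f d.t22 = (d.map f).t22 ∧ f d.t21 = (d.map f).t21 ∧ f d.t20 = (d.map f).t20 ∧ f d.t13 = (d.map f).t13 ∧ f d.t12 = (d.map f).t12 ∧ f d.t11 = (d.map f).t11 ∧ f d.t10 = (d.map f).t10 ∧ f d.t03 = (d.map f).t03 ∧ f d.t02 = (d.map f).t02 ∧ f d.t01 = (d.map f).t01 ∧ f d.t00 = (d.map f).t00 := by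
  refine ⟨?_, ?_, ?_, ?_, ?_, ?_, ?_, ?_, ?_, ?_, ?_⟩
  all_goals
    simp only [TD.t22, TD.t21, TD.t20, TD.t13, TD.t12, TD.t11, TD.t10, TD.t03, TD.t02,
      TD.t01, TD.t00, TD.g1, TD.g0, TD.Q20, TD.h0, TD.h1, TD.Y11, TD.Y10, TD.Y02, TD.Y01, TD.Y00,
      TD.mu0, TD.c, TD.map, map_add, map_sub, map_neg, map_mul, map_pow, map_ofNat]

theorem Reg.t_mem (h : Reg F d) :
    d.t22 ∈ F ∧ d.t21 ∈ F ∧ d.t20 ∈ F ∧ d.t13 ∈ F ∧ d.t12 ∈ F ∧ d.t11 ∈ F ∧ d.t10 ∈ F ∧ d.t03 ∈ F ∧ d.t02 ∈ F ∧ d.t01 ∈ F ∧ d.t00 ∈ F := by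
  obtain ⟨m1, m2, m3, m4, m5, m6, m7, m8, m9, m10, m11⟩ := map_t (algebraMap F N) h.sub
  rw [h.map_sub] at m1 m2 m3 m4 m5 m6 m7 m8 m9 m10 m11
  rw [← m1, ← m2, ← m3, ← m4, ← m5, ← m6, ← m7, ← m8, ← m9, ← m10, ← m11]
  exact ⟨Subtype.property _, Subtype.property _, Subtype.property _, Subtype.property _,
    Subtype.property _, Subtype.property _, Subtype.property _, Subtype.property _,
    Subtype.property _, Subtype.property _, Subtype.property _⟩

/-- **The derivation identity.** -/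
theorem Reg.der (h : Reg F d) {X S : N} (hT : d.T2 X * S ^ 2 + d.T1 X * S + d.T0 X = 0)
    {D : Derivation ℤ N N} (hD : ∀ z ∈ F, D z = 0) :
    q1 (d.ks S) X * D X + (2 * d.T2 X * S + d.T1 X) * D S = 0 := by
  obtain ⟨m1, m2, m3, m4, m5, m6, m7, m8, m9, m10, m11⟩ := h.t_mem
  have k1 := congrArg D hT
  rw [d.T2_eq, d.T1_eq, d.T0_eq h.hl, map_zero] at k1
  simp only [map_add, Derivation.leibniz, Derivation.leibniz_pow, hD _ m1, hD _ m2, hD _ m3,
    hD _ m4, hD _ m5, hD _ m6, hD _ m7, hD _ m8, hD _ m9, hD _ m10, hD _ m11, smul_eq_mul,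
    mul_zero, add_zero, nsmul_eq_mul, Nat.cast_ofNat, Nat.add_one_sub_one,
    pow_one] at k1
  rw [d.T2_eq, d.T1_eq]
  unfold q1
  change (d.t21 * S ^ 2 + d.t11 * S + d.t01 + 2 * (d.t22 * S ^ 2 + d.t12 * S + d.t02) * X +
    3 * (d.t13 * S + d.t03) * X ^ 2 + 4 * 1 * X ^ 3) * D X + _ = 0
  linear_combination k1

/-- **The quartic is separable.** -/
theorem Reg.sep (h : Reg F d) {S : N} (hS : S ∉ F) (X : N) (hX : qv (d.ks S) X = 0) :
    q1 (d.ks S) X ≠ 0 := by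
  intro h0
  rw [← d.T_eq h.hl] at hX
  have hXF : X ∉ F := fun hm => hS (h.S_mem hX hm)
  obtain ⟨D, hD, hDS⟩ := Gen.exists_derivation F (w := S) (fun k => hS (h.cl S k))
  have k1 := h.der hX hD
  rw [h0, hDS, zero_mul, zero_add, mul_one] at k1
  exact h.TS_ne hX hXF k1

end

end Vale.Agent.P297.Z2
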