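import Vale.Agent.P297.H212.Z2.NodeC

/-!
The lines through the nodes in a general plane: forms without the three nodes.
-/

set_option linter.unusedSectionVars false
set_option linter.unusedVariables false

open IntermediateField Polynomial

namespace Vale.Agent.P297.Z2

open Vale.Agent.P297 Vale.Agent.P297.Gen Vale.Agent.P297.H839 Vale.Agent.P297.H600
open Vale.Agent.P297.H729 Vale.Agent.P297.Z3 Vale.Agent.P297.G4 Vale.Agent.P297.H160.Z2Irr
open Vale.Agent.P297.H212.Z2 Vale.Agent.P297.H72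

section

variable {N : Type} [Field N] [Algebra ℂ N] [IsAlgClosed N] [CharZero N] {P : Par}
  {l al be p r s s' : N}

/-- **The plane of a general tangent line is general.** -/
theorem plane_gen' (hc : NC P) {f g : ℂ[X]} (I : InvPQ P f g) (hl : Transcendental ℂ l)
    (hn : IsNode P l al be)
    (hd : (ntd P l al be).b1 p r ^ 2 = 4 * (ntd P l al be).B2 p r * (ntd P l al be).b0 p r)
    (hg : p ∉ cl0 ({l} : Set N) ∨ r ∉ cl0 ({l} : Set N)) : p + r ∉ cl0 ({l} : Set N) := by
  classical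
  have hR := node_reg hc I hl hn
  obtain ⟨k1, k2, k3, k4, k5⟩ := line_facts hc I (genLine hc I) hl hn hd hg
  have hpt := TD.pt_f (d := ntd P l al be) hR.he k1 hd
  intro hW
  apply k3
  refine hR.X_mem (hpt.T_eq hR.he) ?_
  unfold TD.Sf
  have e : p - (ntd P l al be).pn + (r - (ntd P l al be).rn) =
      p + r - (ntd P l al be).pn - (ntd P l al be).rn := by ring
  rw [e]
  exact sub_mem (sub_mem hW hR.pn) hR.rn

/-- a root of the plane cubic at a node gives a general tangent line -/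
theorem root_line' (hM : P.M1 = 0) (hc : NC P) {f g : ℂ[X]} (I : InvPQ P f g)
    (hl : Transcendental ℂ l) (hn : IsNode P l al be) {W x : N} (hW : W ∉ cl0 ({l} : Set N))
    (hx : ((H65.planeCub P l W).disc al).eval x = 0) :
    (ntd P l al be).b1 x (W - x) ^ 2 =
      4 * (ntd P l al be).B2 x (W - x) * (ntd P l al be).b0 x (W - x) ∧
      (x ∉ cl0 ({l} : Set N) ∨ W - x ∉ cl0 ({l} : Set N)) ∧ (ntd P l al be).B2 x (W - x) ≠ 0 := by
  classical
  have h1 : (ntd P l al be).b1 x (W - x) ^ 2 =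
      4 * (ntd P l al be).B2 x (W - x) * (ntd P l al be).b0 x (W - x) := by
    rw [← H65.disc_iff hM hn, show x + (W - x) = W by ring]
    exact hx
  have h2 : x ∉ cl0 ({l} : Set N) ∨ W - x ∉ cl0 ({l} : Set N) := by
    by_contra hcon
    push Not at hcon
    apply hW
    have := add_mem hcon.1 hcon.2
    rwa [show x + (W - x) = W by ring] at this
  exact ⟨h1, h2, ((genLine hc I).fw l al be _ _ hl hn h1 h2).2⟩

/-- **A second tangent line through the same node in the same plane.** -/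
theorem second_line (hM : P.M1 = 0) (hc : NC P) {f g : ℂ[X]} (I : InvPQ P f g)
    (hl : Transcendental ℂ l) (L : NLine P l al be p r s s')
    (hg : p ∉ cl0 ({l} : Set N) ∨ r ∉ cl0 ({l} : Set N))
    (hdeg : ((H65.planeCub P l (p + r)).disc al).natDegree = 4)
    (hnd : ((H65.planeCub P l (p + r)).disc al).roots.Nodup) :
    ∃ p₁ s₁ : N, p₁ ≠ p ∧ s₁ ≠ 0 ∧
      NLine P l al be p₁ (p + r - p₁) s₁ (sp P l al be p₁ (p + r - p₁) s₁) ∧
      (p₁ ∉ cl0 ({l} : Set N) ∨ p + r - p₁ ∉ cl0 ({l} : Set N)) := by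
  classical
  have hW := plane_gen' hc I hl L.node (L.disc hM) hg
  obtain ⟨x, hx1, hx2⟩ := exists_roots4 hdeg hnd
  obtain ⟨k, hk⟩ : ∃ k, x k ≠ p := by
    by_contra hcon
    push Not at hcon
    have := hx1 ((hcon 0).trans (hcon 1).symm)
    exact absurd this (by decide)
  obtain ⟨h1, h2, h3⟩ := root_line' hM hc I hl L.node hW (hx2 k)
  obtain ⟨s₁, hs₁⟩ := IsAlgClosed.exists_pow_nat_eq
    ((ntd P l al be).B2 (x k) (p + r - x k)) two_pos
  have hs0 : s₁ ≠ 0 := by
    rintro rfl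
    apply h3
    rw [← hs₁]
    ring
  exact ⟨x k, s₁, hk, hs0, nline_of hM L.node h1 hs₁ hs0, h2⟩

/-- **The four lines through the second node.** -/
theorem four_nlines (hM : P.M1 = 0) (hc : NC P) {f g : ℂ[X]} (I : InvPQ P f g)
    (hl : Transcendental ℂ l) (L : NLine P l al be p r s s') (hs : s ≠ 0)
    (hg : p ∉ cl0 ({l} : Set N) ∨ r ∉ cl0 ({l} : Set N)) {al₂ be₂ : N}
    (hn₂ : IsNode P l al₂ be₂) (h12 : al ≠ al₂)
    (hdeg : ((H65.planeCub P l (p + r)).disc al).natDegree = 4)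
    (hnd : ((H65.planeCub P l (p + r)).disc al).roots.Nodup) {x : N}
    (hx : ((H65.planeCub P l (p + r)).disc al₂).eval x = 0) :
    H65.sx P l al al₂ p r s s' x ≠ 0 ∧
      NLine P l al₂ be₂ x (p + r - x) (H65.sx P l al al₂ p r s s' x)
        (sp P l al₂ be₂ x (p + r - x) (H65.sx P l al al₂ p r s s' x)) ∧
      (x ∉ cl0 ({l} : Set N) ∨ p + r - x ∉ cl0 ({l} : Set N)) := by
  have hW := plane_gen' hc I hl L.node (L.disc hM) hg
  obtain ⟨h1, h2, h3⟩ := root_line' hM hc I hl hn₂ hW hx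
  have hd1 := disc_simple hdeg hnd (x := p) (by
    rw [H65.disc_iff hM L.node]
    exact L.disc hM)
  obtain ⟨k1, k2⟩ := H65.nline_sx hM L hn₂ h12 hs hd1 hx h3
  exact ⟨k1, k2, h2⟩

end

end Vale.Agent.P297.Z2
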